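import Vale.Agent.P014K.Hk
import Vale.Agent.P014A.Iface
import Vale.Agent.P014G.L
import Vale.Agent.P004.I3

/-!
# P014K: the unfolded series is a Mellin convolution
-/

open MeasureTheory Set
open scoped Real

namespace Vale.Agent.P014K

open Vale.Agent.P014.H687 Vale.Agent.P014B Vale.Agent.P014A Vale.Agent.P014G
open Vale.Agent.P014.H70 (r3 Th3)

theorem regroup {α β : Type*} {f : α → ℝ} {S : ℝ} (hf : HasSum f S) (lev : α → β)
    (F : β → Finset α) (h1 : ∀ m, ∀ x ∈ F m, lev x = m) (h2 : ∀ x, f x ≠ 0 → x ∈ F (lev x)) :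
    HasSum (fun m => ∑ x ∈ F m, f x) S := by
  refine (HasSum.tsum_fiberwise hf lev).congr_fun fun m => ?_
  rw [tsum_subtype (lev ⁻¹' {m}) f, tsum_eq_sum (s := F m)]
  · refine Finset.sum_congr rfl fun x hx => ?_
    rw [Set.indicator_of_mem]
    exact h1 m x hx
  · intro x hx
    rw [Set.indicator_apply_eq_zero]
    intro h3
    by_contra h4
    have h5 : lev x = m := h3
    exact hx (h5 ▸ h2 x h4)

theorem AA_abs (n m : ℕ) : |(AA n m : ℝ)| ≤ 2 * m := by
  refine (P004G.pfLbound _ (ld_AA n) m).trans ?_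
  calc P004.dv m * √(m : ℝ) ≤ 2 * √(m : ℝ) * √(m : ℝ) :=
        mul_le_mul_of_nonneg_right (P004.I3.dv_le_sqrt m) (Real.sqrt_nonneg _)
    _ = 2 * m := by rw [mul_assoc, Real.mul_self_sqrt (Nat.cast_nonneg _)]

theorem an_abs (m : ℕ) : |(an r3 m : ℝ)| ≤ 2 * m := by
  simpa [AA] using AA_abs 1 m

theorem jac_abs (a : ℤ) (n : ℕ) : |(jacobiSym a n : ℝ)| ≤ 1 := by
  rcases jacobiSym.trichotomy a n with h | h | h <;> simp [h]

/-- the integrand of the Bessel kernel -/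
noncomputable def kb (x u : ℝ) : ℝ := Real.exp (-(2 * π * (u + x / u))) / u

theorem kb_nonneg (x : ℝ) {u : ℝ} (hu : 0 < u) : 0 ≤ kb x u := by
  unfold kb
  positivity

theorem kb_le {x u : ℝ} (hx : 0 < x) (hu : 0 < u) :
    kb x u ≤ 6 / x ^ 3 * (Real.exp (-u) * u ^ ((3 : ℝ) - 1)) := by
  have h1 := Real.pow_div_factorial_le_exp (x / u) (by positivity) 3
  have h2 : Real.exp (-(2 * π * (u + x / u))) ≤ Real.exp (-u) * (Real.exp (x / u))⁻¹ := by
    rw [← Real.exp_neg, ← Real.exp_add, Real.exp_le_exp]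
    have : 0 < x / u := by positivity
    nlinarith [Real.pi_gt_three]
  have h3 : (Real.exp (x / u))⁻¹ ≤ ((x / u) ^ 3 / (Nat.factorial 3 : ℕ))⁻¹ :=
    inv_anti₀ (by positivity) h1
  rw [show (3 : ℝ) - 1 = (2 : ℕ) by norm_num, Real.rpow_natCast, kb, div_le_iff₀ hu]
  refine h2.trans ((mul_le_mul_of_nonneg_left h3 (Real.exp_pos _).le).trans (le_of_eq ?_))
  simp only [Nat.factorial]
  push_cast
  field_simp

theorem kb_int {x : ℝ} (hx : 0 < x) : IntegrableOn (kb x) (Ioi 0) := by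
  refine Integrable.mono' ((Real.GammaIntegral_convergent (s := 3) (by norm_num)).const_mul
    (6 / x ^ 3)) ?_ ?_
  · have : Measurable (kb x) := by unfold kb; fun_prop
    exact this.aestronglyMeasurable
  · filter_upwards [ae_restrict_mem measurableSet_Ioi] with u hu
    rw [Real.norm_of_nonneg (kb_nonneg x hu)]
    exact kb_le hx hu

theorem KB_nonneg (x : ℝ) : 0 ≤ KB x :=
  setIntegral_nonneg measurableSet_Ioi fun _ hu => kb_nonneg x hu

theorem KB_le {x : ℝ} (hx : 0 < x) : KB x ≤ 6 / x ^ 3 * Real.Gamma 3 := by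
  rw [Real.Gamma_eq_integral (by norm_num), ← integral_const_mul]
  exact setIntegral_mono_on (kb_int hx)
    ((Real.GammaIntegral_convergent (s := 3) (by norm_num)).const_mul _) measurableSet_Ioi
    fun u hu => kb_le hx hu

theorem sq_summable : Summable fun n : ℕ => ‖1 / (n : ℝ) ^ 2‖ :=
  (Real.summable_one_div_nat_pow.2 one_lt_two).norm

section

variable (n₁ n₂ : ℕ) {t : ℝ} (ht : 0 < t)

/-- the triple series -/
noncomputable def T3s (t : ℝ) (x : ℕ × ℕ × ℕ) : ℝ :=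
  ((ps x.1 * jacobiSym x.1 n₁ * jacobiSym x.1 n₂ * an r3 (x.2.1 * x.2.2) * jacobiSym x.2.1 n₁ *
    jacobiSym x.2.2 n₂ : ℤ) : ℝ) * KB (t * x.1 ^ 2 * (x.2.1 * x.2.2 : ℕ))

theorem T3s_ne {x : ℕ × ℕ × ℕ} (h : T3s n₁ n₂ t x ≠ 0) : x.1 ≠ 0 ∧ x.2.1 * x.2.2 ≠ 0 := by
  constructor
  · intro h1
    simp [T3s, h1, ps] at h
  · intro h1
    simp [T3s, h1, an_zero T3] at h

include ht in
theorem T3s_summable : Summable (T3s n₁ n₂ t) := by
  have h1 := summable_mul_of_summable_norm sq_summable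
    (summable_mul_of_summable_norm sq_summable sq_summable).norm
  refine Summable.of_norm_bounded (h1.mul_left (12 / t ^ 3 * Real.Gamma 3)) fun x => ?_
  have hG : 0 < Real.Gamma 3 := Real.Gamma_pos_of_pos (by norm_num)
  by_cases h : T3s n₁ n₂ t x = 0
  · rw [h, norm_zero]
    positivity
  obtain ⟨h2, h3⟩ := T3s_ne n₁ n₂ h
  obtain ⟨d, a, b⟩ := x
  have hd : (1 : ℝ) ≤ d := by exact_mod_cast Nat.pos_of_ne_zero h2
  have ha : (0 : ℝ) < a := by exact_mod_cast Nat.pos_of_ne_zero (left_ne_zero_of_mul h3)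
  have hb : (0 : ℝ) < b := by exact_mod_cast Nat.pos_of_ne_zero (right_ne_zero_of_mul h3)
  have h4 : |(ps d : ℝ)| ≤ d := by
    unfold ps
    split_ifs <;> simp
  have h5 := an_abs (a * b)
  have h6 := KB_le (x := t * d ^ 2 * (a * b : ℕ)) (by push_cast; positivity)
  simp only [T3s, Real.norm_eq_abs, Int.cast_mul, abs_mul, abs_of_nonneg (KB_nonneg _)]
  calc _ ≤ (d * 1 * 1 * (2 * (a * b : ℕ)) * 1 * 1) *
        (6 / (t * d ^ 2 * (a * b : ℕ)) ^ 3 * Real.Gamma 3) := by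
        gcongr <;> first | exact jac_abs _ _ | exact KB_nonneg _
    _ = 12 / t ^ 3 * Real.Gamma 3 * (1 / d ^ 2 * (1 / a ^ 2 * (1 / b ^ 2))) * (1 / d ^ 3) := by
        push_cast
        field_simp
        ring
    _ ≤ _ := by
        refine mul_le_of_le_one_right (by positivity) ?_
        rw [div_le_one (by positivity)]
        exact one_le_pow₀ hd

variable (h₁ : n₁ ≠ 0) (h₂ : n₂ ≠ 0)

include h₁ h₂ in
theorem T3s_Jt {S : ℝ} (h : HasSum (T3s n₁ n₂ t) S) : HasSum (Jt n₁ n₂ t) S := by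
  refine (regroup h (fun x => (x.1, x.2.1 * x.2.2))
    (fun p => p.2.divisorsAntidiagonal.map ⟨fun y => (p.1, y), fun _ _ h => (Prod.ext_iff.1 h).2⟩)
    ?_ ?_).congr_fun fun p => ?_
  · intro p x hx
    obtain ⟨y, hy, rfl⟩ := Finset.mem_map.1 hx
    exact Prod.ext rfl (Nat.mem_divisorsAntidiagonal.1 hy).1
  · intro x hx
    exact Finset.mem_map.2 ⟨x.2, Nat.mem_divisorsAntidiagonal.2 ⟨rfl, (T3s_ne n₁ n₂ hx).2⟩, rfl⟩
  · rw [Finset.sum_map, Jt, conv]
    have h3 : (if 17 ∣ p.1 then 0 else jacobiSym p.1 (n₁ * n₂) * p.1 * an r3 p.2 *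
        ∑ q ∈ p.2.divisorsAntidiagonal, jacobiSym q.1 n₁ * jacobiSym q.2 n₂ : ℤ) =
        ∑ q ∈ p.2.divisorsAntidiagonal, ps p.1 * jacobiSym p.1 n₁ * jacobiSym p.1 n₂ *
          an r3 p.2 * jacobiSym q.1 n₁ * jacobiSym q.2 n₂ := by
      rw [jacobiSym.mul_right' _ h₁ h₂, ps, Finset.mul_sum]
      split_ifs
      · simp
      · exact Finset.sum_congr rfl fun q _ => by ring
    rw [h3, Int.cast_sum, Finset.sum_mul]
    refine Finset.sum_congr rfl fun q hq => ?_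
    change _ = T3s n₁ n₂ t (p.1, q)
    simp only [T3s, (Nat.mem_divisorsAntidiagonal.1 hq).1]

theorem T3s_AA {S : ℝ} (h : HasSum (T3s n₁ n₂ t) S) :
    HasSum (fun p : ℕ × ℕ => (AA n₁ p.1 : ℝ) * AA n₂ p.2 * KB (t * (p.1 * p.2))) S := by
  refine (regroup h (fun x => (x.1 * x.2.1, x.1 * x.2.2))
    (fun p => (p.2.divisors.filter (· ∣ p.1)).map
      ⟨fun d => (d, p.1 / d, p.2 / d), fun _ _ h => (Prod.ext_iff.1 h).1⟩)
    ?_ ?_).congr_fun fun p => ?_
  · intro p x hx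
    obtain ⟨y, hy, rfl⟩ := Finset.mem_map.1 hx
    rw [Finset.mem_filter] at hy
    exact Prod.ext (Nat.mul_div_cancel' hy.2) (Nat.mul_div_cancel' (Nat.dvd_of_mem_divisors hy.1))
  · intro x hx
    obtain ⟨h1, h2⟩ := T3s_ne n₁ n₂ hx
    refine Finset.mem_map.2 ⟨x.1, Finset.mem_filter.2 ⟨Nat.mem_divisors.2 ⟨Dvd.intro _ rfl,
      mul_ne_zero h1 (right_ne_zero_of_mul h2)⟩, Dvd.intro _ rfl⟩, ?_⟩
    change (x.1, x.1 * x.2.1 / x.1, x.1 * x.2.2 / x.1) = x
    simp only [Nat.mul_div_cancel_left _ (Nat.pos_of_ne_zero h1)]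
  · obtain ⟨k, l⟩ := p
    rcases eq_or_ne l 0 with rfl | hl
    · simp [(ld_AA n₂).zero]
    have h3 : AA n₁ k * AA n₂ l = SS (an r3) k l * (jacobiSym k n₁ * jacobiSym l n₂) := by
      rw [← hecke_mul (hk T3) hl, AA, AA]
      ring
    rw [Finset.sum_map, ← Int.cast_mul, h3, SS, ← Finset.sum_filter, Finset.sum_mul, Int.cast_sum,
      Finset.sum_mul]
    refine Finset.sum_congr rfl fun d hd => ?_
    rw [Finset.mem_filter] at hd
    obtain ⟨a, rfl⟩ := hd.2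
    obtain ⟨b, rfl⟩ := Nat.dvd_of_mem_divisors hd.1
    have h4 := Nat.pos_of_mem_divisors hd.1
    change _ = T3s n₁ n₂ t (d, d * a / d, d * b / d)
    simp only [T3s, Nat.mul_div_cancel_left _ h4, Nat.cast_mul, jacobiSym.mul_left]
    congr 1
    · congr 1
      ring
    · congr 1
      ring

end

theorem FF_sum (n : ℕ) {y : ℝ} (hy : 0 < y) :
    Summable fun m : ℕ => ‖(AA n m : ℝ) * Real.exp (-2 * π * m * y)‖ := by
  have h1 : ‖Real.exp (-2 * π * y)‖ < 1 := by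
    rw [Real.norm_of_nonneg (Real.exp_pos _).le, Real.exp_lt_one_iff]
    have : 0 < π * y := by positivity
    linarith
  refine Summable.of_nonneg_of_le (fun _ => norm_nonneg _) (fun m => ?_)
    ((summable_pow_mul_geometric_of_norm_lt_one 1 h1).mul_left 2)
  rw [norm_mul, Real.norm_of_nonneg (Real.exp_pos _).le, ← Real.exp_nat_mul, pow_one, ← mul_assoc,
    show (m : ℝ) * (-2 * π * y) = -2 * π * m * y by ring]
  gcongr
  exact AA_abs n m

theorem FF_eq (n : ℕ) (y : ℝ) : FF n y = ∑' m : ℕ, (AA n m : ℝ) * Real.exp (-2 * π * m * y) := rfl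

theorem FF_meas (n : ℕ) : Measurable (FF n) :=
  Measurable.tsum (f := fun (m : ℕ) (y : ℝ) => (AA n m : ℝ) * Real.exp (-2 * π * m * y))
    fun m => by fun_prop

theorem sum_eq_int (n₁ n₂ : ℕ) {t : ℝ} (ht : 0 < t) :
    ∑' p : ℕ × ℕ, (AA n₁ p.1 : ℝ) * AA n₂ p.2 * KB (t * (p.1 * p.2)) =
      ∫ u in Ioi (0 : ℝ), FF n₁ u * (FF n₂ (t / u) / u) := by
  set g : ℕ × ℕ → ℝ → ℝ := fun p u => (AA n₁ p.1 : ℝ) * AA n₂ p.2 *
    (p.1 * kb (t * (p.1 * p.2)) (p.1 * u)) with hg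
  have hz : ∀ p : ℕ × ℕ, (AA n₁ p.1 : ℝ) * AA n₂ p.2 = 0 ∨ ((0 : ℝ) < p.1 ∧ (0 : ℝ) < p.2) := by
    rintro ⟨k, l⟩
    rcases Nat.eq_zero_or_pos k with rfl | hk
    · simp [(ld_AA n₁).zero]
    rcases Nat.eq_zero_or_pos l with rfl | hl
    · simp [(ld_AA n₂).zero]
    exact Or.inr ⟨by exact_mod_cast hk, by exact_mod_cast hl⟩
  have h1 : ∀ p, Integrable (g p) (volume.restrict (Ioi 0)) := by
    intro p
    rcases hz p with h | ⟨h, h'⟩
    · simp [hg, h]
    · refine (Integrable.const_mul ?_ _).const_mul _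
      exact (integrableOn_Ioi_comp_mul_left_iff _ 0 h).2 (by
        rw [mul_zero]; exact kb_int (by positivity))
  have h2 : ∀ p : ℕ × ℕ, ∀ c : ℝ, (c = 0 ∨ (0 : ℝ) < p.1) →
      ∫ u in Ioi (0 : ℝ), c * (p.1 * kb (t * (p.1 * p.2)) (p.1 * u)) =
        c * KB (t * (p.1 * p.2)) := by
    rintro p c (rfl | h)
    · simp
    · rw [integral_const_mul, integral_const_mul, integral_comp_mul_left_Ioi _ 0 h, mul_zero,
        smul_eq_mul, mul_inv_cancel_left₀ h.ne']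
      rfl
  have h3 : ∀ p, ∫ u in Ioi (0 : ℝ), ‖g p u‖ =
      ‖(AA n₁ p.1 : ℝ) * AA n₂ p.2 * KB (t * (p.1 * p.2))‖ := by
    intro p
    rw [norm_mul, Real.norm_of_nonneg (KB_nonneg _), ← h2 p _ ((hz p).imp norm_eq_zero.2 And.left)]
    refine setIntegral_congr_fun measurableSet_Ioi fun u (hu : 0 < u) => ?_
    simp only [hg]
    rcases hz p with h | ⟨h, -⟩
    · simp [h]
    · rw [norm_mul, Real.norm_of_nonneg (mul_nonneg h.le (kb_nonneg _ (by positivity)))]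
  have h4 := hasSum_integral_of_summable_integral_norm h1 (by
    simp only [h3]
    exact (T3s_AA n₁ n₂ (T3s_summable n₁ n₂ ht).hasSum).summable.norm)
  rw [← (h4.congr_fun fun p => (h2 p _ ((hz p).imp id And.left)).symm).tsum_eq.symm]
  refine setIntegral_congr_fun measurableSet_Ioi fun u (hu : 0 < u) => ?_
  rw [← mul_div_assoc, FF_eq, FF_eq, tsum_mul_tsum_of_summable_norm (FF_sum n₁ hu)
    (FF_sum n₂ (div_pos ht hu)), ← tsum_div_const]
  refine tsum_congr fun p => ?_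
  simp only [hg]
  rcases hz p with h | ⟨h, -⟩
  · rw [h, mul_mul_mul_comm, h]
    simp
  · rw [kb]
    have : -(2 * π * (p.1 * u + t * (p.1 * p.2) / (p.1 * u))) =
        -2 * π * p.1 * u + -2 * π * p.2 * (t / u) := by
      field_simp
      ring
    rw [this, Real.exp_add]
    field_simp

theorem mellin_conv {F G : ℝ → ℝ} (mF : Measurable F) (mG : Measurable G)
    (hF : IntegrableOn F (Ioi 0)) (hG : IntegrableOn G (Ioi 0)) :
    ∫ t in Ioi (0 : ℝ), ∫ u in Ioi (0 : ℝ), F u * (G (t / u) / u) =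
      (∫ y in Ioi (0 : ℝ), F y) * ∫ y in Ioi (0 : ℝ), G y := by
  have h1 : ∀ (H : ℝ → ℝ) (c : ℝ) {u : ℝ}, 0 < u →
      ∫ t in Ioi (0 : ℝ), c * (H (t / u) / u) = c * ∫ y in Ioi (0 : ℝ), H y := by
    intro H c u hu
    simp only [div_eq_mul_inv]
    rw [integral_const_mul, integral_mul_const, integral_comp_mul_right_Ioi H 0 (inv_pos.2 hu),
      zero_mul, inv_inv, smul_eq_mul]
    field_simp
  rw [integral_integral_swap, ← integral_mul_const]
  · exact setIntegral_congr_fun measurableSet_Ioi fun u hu => h1 G _ hu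
  rw [integrable_prod_iff' (Measurable.aestronglyMeasurable (by fun_prop))]
  constructor
  · filter_upwards [ae_restrict_mem measurableSet_Ioi] with u (hu : 0 < u)
    simp only [Function.uncurry_apply_pair, div_eq_mul_inv]
    refine (Integrable.mul_const ?_ _).const_mul _
    exact (integrableOn_Ioi_comp_mul_right_iff G 0 (inv_pos.2 hu)).2 (by rwa [zero_mul])
  · refine IntegrableOn.congr_fun (hF.norm.mul_const (∫ y in Ioi (0 : ℝ), ‖G y‖))
      (fun u (hu : 0 < u) => ?_) measurableSet_Ioi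
    simp only [Function.uncurry_apply_pair]
    rw [← h1 (fun y => ‖G y‖) _ hu]
    refine integral_congr_ae (Filter.Eventually.of_forall fun t => ?_)
    simp only [norm_mul, norm_div, Real.norm_of_nonneg hu.le]

/-- **block H** -/
theorem convStmt : ConvStmt := by
  intro n₁ n₂ o₁ o₂ i₁ i₂
  have h₁ : n₁ ≠ 0 := o₁.pos.ne'
  have h₂ : n₂ ≠ 0 := o₂.pos.ne'
  refine ⟨fun t ht => (T3s_Jt n₁ n₂ h₁ h₂ (T3s_summable n₁ n₂ ht).hasSum).summable, ?_⟩
  rw [← mellin_conv (FF_meas n₁) (FF_meas n₂) i₁ i₂]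
  refine setIntegral_congr_fun measurableSet_Ioi fun t (ht : 0 < t) => ?_
  rw [← sum_eq_int n₁ n₂ ht, (T3s_Jt n₁ n₂ h₁ h₂ (T3s_summable n₁ n₂ ht).hasSum).tsum_eq,
    (T3s_AA n₁ n₂ (T3s_summable n₁ n₂ ht).hasSum).tsum_eq]

end Vale.Agent.P014K
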