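import Vale.Agent.P014K.Fr
import Vale.Agent.P014G.Mod

/-!
# P014K: the cusp form of level `17` is orthogonal to the Eisenstein series
-/

open Complex MeasureTheory Set CongruenceSubgroup Filter
open UpperHalfPlane hiding I
open scoped Real MatrixGroups Modular ENNReal ComplexConjugate Topology

namespace Vale.Agent.P014K

open Vale.Agent.P014.H687 Vale.Agent.P014A Vale.Agent.P014G
open Vale.Agent.P014.H70 (r3 Th3)
open Vale.Agent.P004H.H204 (Conv ev qq E2c E2c_mob hasSum_E2 conv_of norm_qq norm_qq_lt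
  eventually_im)

/-- bounded on a half plane -/
def Bd (G : ℂ → ℂ) : Prop := ∃ C : ℝ, 0 ≤ C ∧ ∀ w : ℂ, 1 / 40 ≤ w.im → ‖G w‖ ≤ C

theorem conv_bd {p : PowerSeries ℂ} (hp : Conv p) : Bd fun w => ev p (qq w) := by
  have h0 : Real.exp (-(2 * π * (1 / 40))) < 1 := by
    rw [Real.exp_lt_one_iff]
    have := Real.pi_pos
    linarith
  have h2 := hp _ (Real.exp_pos _).le h0
  refine ⟨∑' n, ‖PowerSeries.coeff n p‖ * Real.exp (-(2 * π * (1 / 40))) ^ n,
    tsum_nonneg fun n => by positivity, fun w hw => ?_⟩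
  have hq := norm_qq_lt (z := w) (by linarith)
  refine (norm_tsum_le_tsum_norm (hp.norm hq)).trans ((hp.norm hq).tsum_le_tsum (fun n => ?_) h2)
  rw [norm_mul, norm_pow, norm_qq]
  gcongr

section

variable {G : ℂ → ℂ} {c : ℕ → ℂ} (h : ∀ z : ℂ, 0 < z.im → HasSum (fun n => c n * qq z ^ n) (G z))

include h

theorem sum_conv : Conv (PowerSeries.mk c) := conv_of fun z hz => by simpa using (h z hz).summable

theorem sum_ev {z : ℂ} (hz : 0 < z.im) : G z = ev (PowerSeries.mk c) (qq z) := by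
  unfold ev
  simp only [PowerSeries.coeff_mk]
  exact (h z hz).tsum_eq.symm

theorem sum_bd : Bd G := by
  obtain ⟨C, h0, hC⟩ := conv_bd (sum_conv h)
  exact ⟨C, h0, fun w hw => by rw [sum_ev h (by linarith)]; exact hC w hw⟩

theorem sum_cont : Continuous fun z : ℍ => G z := by
  have : (fun z : ℍ => G z) = fun z : ℍ => ev (PowerSeries.mk c) (qq z) :=
    funext fun z => sum_ev h z.2
  rw [this, continuous_iff_continuousAt]
  intro z
  exact ContinuousAt.comp (g := fun w => ev (PowerSeries.mk c) (qq w))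
    ((sum_conv h).hasDerivAt z.2).continuousAt continuous_coe.continuousAt

end

theorem f_bd : ∃ C : ℝ, 0 ≤ C ∧ ∀ w : ℂ, 1 / 40 ≤ w.im → ‖Fc Th3 w‖ * w.im ^ 2 ≤ C := by
  obtain ⟨C, h0, hC⟩ := conv_bd conv_pF
  refine ⟨2 * C, by positivity, fun w hw => ?_⟩
  have hw0 : 0 < w.im := by linarith
  have h1 : Fc Th3 w = qq w * ev pF (qq w) := by
    rw [(F_form' T3).eq_ev hw0, ← ev_pf (norm_qq_lt hw0)]
    rfl
  have h2 := Vale.Agent.P004.H26.H392.pow_exp_le 2 hw0.le
  have h3 : Real.exp (-(2 * π * w.im)) ≤ Real.exp (-(π * w.im)) := by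
    have : 0 < π * w.im := by positivity
    rw [Real.exp_le_exp]
    linarith
  rw [h1, norm_mul, norm_qq, mul_right_comm]
  refine mul_le_mul ?_ (hC w hw) (norm_nonneg _) (by norm_num)
  norm_num [Nat.factorial] at h2
  nlinarith [sq_nonneg w.im]

/-- the invariant Eisenstein series of weight two -/
noncomputable def Es (z : ℂ) : ℂ := E2c z - ((3 / (π * z.im) : ℝ) : ℂ)

theorem Es_bd : Bd Es := by
  obtain ⟨C, h0, hC⟩ := sum_bd fun z hz => hasSum_E2 (z := z) hz
  refine ⟨C + 40, by positivity, fun w hw => (norm_sub_le _ _).trans (add_le_add (hC w hw) ?_)⟩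
  have hw0 : 0 < w.im := by linarith
  rw [Complex.norm_real, Real.norm_of_nonneg (by positivity), div_le_iff₀ (by positivity)]
  nlinarith [Real.pi_gt_three]

theorem Es_cont : Continuous fun z : ℍ => Es z := by
  refine (sum_cont fun z hz => hasSum_E2 (z := z) hz).sub (continuous_ofReal.comp ?_)
  exact continuous_const.div (continuous_const.mul UpperHalfPlane.continuous_im)
    fun z => mul_ne_zero Real.pi_ne_zero z.im_ne_zero

theorem mob_im_eq {a b c d : ℤ} (h : a * d - b * c = 1) (z : ℂ) :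
    ((a * z + b) / (c * z + d)).im = z.im / normSq (c * z + d) := by
  have h2 : (a : ℝ) * d - b * c = 1 := by exact_mod_cast h
  rw [Complex.div_im, ← sub_div]
  congr 1
  simp
  linear_combination z.im * h2

theorem Es_mob {a b c d : ℤ} (h : a * d - b * c = 1) {z : ℂ} (hz : 0 < z.im) :
    Es ((a * z + b) / (c * z + d)) = (c * z + d) ^ 2 * Es z := by
  have h0 := den_ne h hz
  have h1 : (z.im : ℂ) ≠ 0 := by exact_mod_cast hz.ne'
  have h2 : (π : ℂ) ≠ 0 := by exact_mod_cast Real.pi_ne_zero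
  have h3 : conj ((c : ℂ) * z + d) = c * z + d - 2 * c * z.im * I := by
    apply Complex.ext <;> simp
    ring
  have h4 : conj ((c : ℂ) * z + d) ≠ 0 := (map_ne_zero _).2 h0
  rw [Es, Es, E2c_mob h hz, mob_im_eq h z]
  push_cast
  rw [Complex.normSq_eq_conj_mul_self]
  field_simp
  rw [h3]
  ring

theorem Es_S {z : ℂ} (hz : 0 < z.im) : Es (-1 / z) = z ^ 2 * Es z := by
  simpa using Es_mob (a := 0) (b := -1) (c := 1) (d := 0) (by norm_num) hz

theorem S_im (z : ℂ) : (-1 / z).im = z.im / normSq z := by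
  simpa using mob_im_eq (a := 0) (b := -1) (c := 1) (d := 0) (by norm_num) z

theorem ec_eq {z : ℂ} (hz : 0 < z.im) : ec z = (17 * Es (17 * z) - Es z) / 8 := by
  have h1 : (z.im : ℂ) ≠ 0 := by exact_mod_cast hz.ne'
  have h2 : (π : ℂ) ≠ 0 := by exact_mod_cast Real.pi_ne_zero
  rw [ec, Es, Es, show (17 * z).im = 17 * z.im by simp]
  push_cast
  field_simp
  ring

/-- the invariant density -/
noncomputable def pr (G : ℂ → ℂ) (w : ℂ) : ℂ := Fc Th3 w * conj (G w) * (w.im : ℂ) ^ 2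

theorem petI_eq (G : ℂ → ℂ) (z : ℍ) : petI G z = ∑ i, pr G (cos17 i • z : ℍ) := rfl

theorem pr_eq {G : ℂ → ℂ} {w j F₀ G₀ : ℂ} {y : ℝ} (hj : j ≠ 0) (h1 : Fc Th3 w = j ^ 2 * F₀)
    (h2 : G w = j ^ 2 * G₀) (h3 : w.im = y / normSq j) : pr G w = F₀ * conj G₀ * (y : ℂ) ^ 2 := by
  have h4 : conj j ≠ 0 := by simpa using hj
  rw [pr, h1, h2, h3, map_mul, map_pow]
  push_cast
  rw [Complex.normSq_eq_conj_mul_self]
  field_simp

theorem pr_meas {G : ℂ → ℂ} (hG : Continuous fun z : ℍ => G z) :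
    Measurable fun z : ℍ => pr G z :=
  (((sum_cont (F_form' T3).sum).mul (continuous_conj.comp hG)).mul
    ((continuous_ofReal.comp UpperHalfPlane.continuous_im).pow 2)).measurable

theorem int_of {φ : ℍ → ℂ} (mφ : Measurable φ) {G : ℂ → ℂ} (hG : Bd G) (c : ℂ)
    (h : ∀ z : ℍ, ∃ w₁ w₂ : ℂ, z.im ≤ 17 * w₁.im ∧ z.im ≤ 17 * w₂.im ∧
      φ z = c * (Fc Th3 w₁ * conj (G w₂) * (z.im : ℂ) ^ 2)) : IntegrableOn φ 𝒟 := by
  obtain ⟨C, hC0, hC⟩ := hG
  obtain ⟨D, hD0, hD⟩ := f_bd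
  refine Measure.integrableOn_of_bounded (M := ‖c‖ * (289 * D * C)) P004N.T3.fd_finite.ne
    mφ.aestronglyMeasurable ?_
  filter_upwards [ae_restrict_mem ModularGroup.isClosed_fd.measurableSet] with z hz
  obtain ⟨w₁, w₂, h1, h2, h3⟩ := h z
  have h4 := ModularGroup.three_le_four_mul_im_sq_of_mem_fd hz
  have h5 := z.im_pos
  have h6 : 1 / 2 ≤ z.im := by nlinarith
  have h7 := hD w₁ (by linarith)
  rw [h3, norm_mul, norm_mul, norm_mul, Complex.norm_conj, norm_pow, Complex.norm_real,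
    Real.norm_of_nonneg h5.le, mul_right_comm]
  refine mul_le_mul_of_nonneg_left (mul_le_mul ?_ (hC w₂ (by linarith)) (norm_nonneg _)
    (by positivity)) (norm_nonneg _)
  calc _ ≤ ‖Fc Th3 w₁‖ * (17 * w₁.im) ^ 2 := by gcongr
    _ ≤ _ := by linarith

theorem cos_coe (j : Fin 17) (z : ℍ) : ((cos17 (some j) • z : ℍ) : ℂ) = -1 / (z + (j : ℕ)) := by
  rw [sl_coe, cos17, show (((j : ℕ) : ℕ) : ℂ) = (((j : ℕ) : ℤ) : ℂ) by simp]
  generalize ((j : ℕ) : ℤ) = k
  simp [Matrix.mul_apply, Fin.sum_univ_two, ModularGroup.coe_T_zpow, ModularGroup.coe_S]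

theorem sh_im (j : ℕ) (z : ℍ) : (((z : ℂ) + j) / 17).im = z.im / 17 := by
  rw [show (((z : ℂ) + j) / 17) = ((z : ℂ) + j) / (17 : ℝ) by norm_num, Complex.div_ofReal_im]
  simp

theorem add_pos_im (j : ℕ) (z : ℍ) : 0 < ((z : ℂ) + j).im := by simpa using z.im_pos

theorem form_cos {G : ℂ → ℂ} {c : ℕ → ℂ} (w : WForm G c (-17)) (j : ℕ) (z : ℍ) :
    G (-1 / (z + j)) = (z + j) ^ 2 * (-G ((z + j) / 17) / 17) := by
  have h := w.W _ (im_div17 (add_pos_im j z))
  rw [mul_div_cancel₀ _ (by norm_num : (17 : ℂ) ≠ 0)] at h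
  rw [h]
  ring

theorem pr_cos {G : ℂ → ℂ} (j : Fin 17) (z : ℍ) {G₀ : ℂ}
    (h : G (-1 / (z + (j : ℕ))) = (z + (j : ℕ)) ^ 2 * G₀) : pr G (cos17 (some j) • z : ℍ) =
      -Fc Th3 ((z + (j : ℕ)) / 17) / 17 * conj G₀ * (z.im : ℂ) ^ 2 := by
  rw [cos_coe]
  exact pr_eq (ne_of_im (add_pos_im j z)) (form_cos (F_form' T3) j z) h
    (by simpa using S_im (z + (j : ℕ)))

theorem form_int {G : ℂ → ℂ} {c : ℕ → ℂ} (w : WForm G c (-17)) (i : Option (Fin 17)) :
    IntegrableOn (fun z : ℍ => pr G (cos17 i • z : ℍ)) 𝒟 := by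
  have m := (pr_meas (sum_cont w.sum)).comp (sl_mp (cos17 i)).measurable
  rcases i with _ | j
  · refine int_of m (sum_bd w.sum) 1 fun z => ⟨z, z, ?_, ?_, ?_⟩
    · simpa using by linarith [z.im_pos]
    · simpa using by linarith [z.im_pos]
    · simp [cos17, pr]
  · refine int_of m (sum_bd w.sum) (1 / 289) fun z =>
      ⟨(z + (j : ℕ)) / 17, (z + (j : ℕ)) / 17, ?_, ?_, ?_⟩
    · rw [sh_im]; linarith
    · rw [sh_im]; linarith
    · rw [pr_cos j z (form_cos w j z), map_div₀, map_neg, map_ofNat]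
      ring

theorem Es_cos (j : ℕ) (z : ℍ) : Es (-1 / (z + j)) = (z + j) ^ 2 * Es z := by
  rw [Es_S (add_pos_im j z)]
  have := Es_mob (a := 1) (b := j) (c := 0) (d := 1) (by norm_num) z.im_pos
  simp only [Int.cast_one, one_mul, Int.cast_natCast, Int.cast_zero, zero_mul, zero_add, div_one,
    one_pow] at this
  rw [this]

theorem pr_W (z : ℍ) :
    pr Es (Wg • z : ℍ) = -17 * (Fc Th3 z * conj (Es (17 * z)) * (z.im : ℂ) ^ 2) := by
  have h := im17 z.im_pos
  rw [Wg_coe, pr_eq (F₀ := -Fc Th3 z / 17) (y := 17 * z.im) (ne_of_im h)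
    (by rw [(F_form' T3).W _ z.im_pos]; ring) (Es_S h) (by simpa using S_im (17 * z))]
  push_cast
  ring

theorem pr_inv (δ : SL(2, ℤ)) (hδ : δ ∈ Gamma0 17) (z : ℍ) : pr Es (δ • z : ℍ) = pr Es z := by
  obtain ⟨c, hc⟩ := dvd_of_mem ⟨δ, hδ⟩
  have h1 := δ.det_coe
  rw [Matrix.det_fin_two] at h1
  simp only at hc
  rw [sl_coe]
  refine pr_eq (den_ne h1 z.im_pos) ?_ (Es_mob h1 z.im_pos) (mob_im_eq h1 z)
  rw [hc] at h1 ⊢
  exact (F_form' T3).mob _ _ _ _ h1 z z.im_pos

theorem root_sum (n : ℕ) : ∑ j : Fin 17, qq (((j : ℕ) : ℂ) / 17) ^ n =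
    if 17 ∣ n then 17 else 0 := by
  have hp := Complex.isPrimitiveRoot_exp 17 (by norm_num)
  have h1 : ∀ j : ℕ, qq ((j : ℂ) / 17) ^ n = (cexp (2 * π * I / (17 : ℕ)) ^ n) ^ j := by
    intro j
    rw [qq, ← Complex.exp_nat_mul, ← Complex.exp_nat_mul, ← Complex.exp_nat_mul]
    congr 1
    push_cast
    ring
  simp only [h1]
  rw [← Finset.sum_range (fun j => (cexp (2 * π * I / (17 : ℕ)) ^ n) ^ j)]
  split_ifs with h
  · simp only [(hp.pow_eq_one_iff_dvd n).2 h]
    simp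
  · have h2 : cexp (2 * π * I / (17 : ℕ)) ^ n ≠ 1 := fun h3 => h ((hp.pow_eq_one_iff_dvd n).1 h3)
    rw [geom_sum_eq h2, ← pow_mul, mul_comm n, pow_mul, hp.pow_eq_one]
    simp

theorem trace_f (z : ℍ) : ∑ j : Fin 17, Fc Th3 ((z + (j : ℕ)) / 17) = 17 * Fc Th3 z := by
  have h1 := hasSum_sum fun (j : Fin 17) (_ : j ∈ Finset.univ) =>
    (F_form' T3).sum _ (im_div17 (add_pos_im j z))
  have h2 : HasSum (fun n : ℕ => (an r3 n : ℂ) * qq (z / 17) ^ n * if 17 ∣ n then 17 else 0)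
      (∑ j : Fin 17, Fc Th3 ((z + (j : ℕ)) / 17)) := by
    refine h1.congr_fun fun n => ?_
    rw [← root_sum, Finset.mul_sum]
    refine Finset.sum_congr rfl fun j _ => ?_
    rw [mul_assoc, ← mul_pow, qq, qq, qq, ← Complex.exp_add]
    congr 3
    ring
  have hinj : Function.Injective fun m : ℕ => 17 * m := fun x y h => by
    simp only at h
    omega
  rw [← hinj.hasSum_iff (fun n hn => by
    rw [if_neg (by rintro ⟨m, rfl⟩; exact hn ⟨m, rfl⟩), mul_zero])] at h2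
  refine h2.unique ((((F_form' T3).sum z z.im_pos).mul_left 17).congr_fun fun m => ?_)
  have h3 := (hk T3).U 17 (by norm_num) dvd_rfl m
  simp only [Function.comp_apply, dvd_mul_right, if_true, h3, an_17 T3, one_mul]
  rw [pow_mul, ← qq17, mul_div_cancel₀ _ (by norm_num : (17 : ℂ) ≠ 0)]
  ring

theorem sum_Es (z : ℍ) : ∑ i : Option (Fin 17), pr Es (cos17 i • z : ℍ) = 0 := by
  rw [Fintype.sum_option]
  simp only [pr_cos _ z (Es_cos _ z)]
  rw [← Finset.sum_mul, ← Finset.sum_mul, ← Finset.sum_div, Finset.sum_neg_distrib, trace_f]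
  simp only [cos17, one_smul, pr, UpperHalfPlane.coe_im]
  ring

theorem orth_zero : ∫ z in 𝒟, petI ec z = 0 := by
  have m := pr_meas Es_cont
  have mW : Measurable fun z : ℍ => Wg • z := (measurePreserving_smul Wg volume).measurable
  have h1 := int_W (A := fun z : ℍ => pr Es z) m pr_inv (fun i => by
    rcases i with _ | j
    · refine int_of (m.comp (sl_mp _).measurable) Es_bd 1 fun z => ⟨z, z, ?_, ?_, ?_⟩
      · simpa using by linarith [z.im_pos]
      · simpa using by linarith [z.im_pos]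
      · simp [cos17, pr]
    · refine int_of (m.comp (sl_mp _).measurable) Es_bd (-1 / 17) fun z =>
        ⟨(z + (j : ℕ)) / 17, z, ?_, ?_, ?_⟩
      · rw [sh_im]; linarith
      · simpa using by linarith [z.im_pos]
      · rw [pr_cos j z (Es_cos j z)]
        ring) (fun i => by
    rcases i with _ | j
    · refine int_of (m.comp (mW.comp (sl_mp _).measurable)) Es_bd (-17) fun z =>
        ⟨z, 17 * z, ?_, ?_, ?_⟩
      · simpa using by linarith [z.im_pos]
      · simpa using by linarith [z.im_pos]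
      · rw [cos17, one_smul, pr_W]
    · refine int_of (m.comp (mW.comp (sl_mp _).measurable)) Es_bd (1 / 289) fun z =>
        ⟨(z + (j : ℕ)) / 17, (z + (j : ℕ)) / 17, ?_, ?_, ?_⟩
      · rw [sh_im]; linarith
      · rw [sh_im]; linarith
      · have h0 := ne_of_im (add_pos_im j z)
        rw [Wg_coe, cos_coe, show -1 / (17 * (-1 / ((z : ℂ) + (j : ℕ)))) = (z + (j : ℕ)) / 17 by
          field_simp, pr, sh_im]
        push_cast
        ring)
  simp only [sum_Es, integral_zero] at h1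
  have h2 : ∀ z : ℍ, petI ec z = -1 / 8 * ∑ i, pr Es (Wg • (cos17 i • z) : ℍ) := by
    intro z
    rw [petI_eq, ← add_zero (∑ i, pr Es (Wg • (cos17 i • z) : ℍ)), ← sum_Es z,
      ← Finset.sum_add_distrib, Finset.mul_sum]
    refine Finset.sum_congr rfl fun i _ => ?_
    rw [pr_W, pr, pr, ec_eq (cos17 i • z).im_pos]
    simp only [map_div₀, map_sub, map_mul, map_ofNat, UpperHalfPlane.coe_im]
    ring
  simp only [h2]
  rw [integral_const_mul, h1, mul_zero]

theorem exists_fdo : ∃ z ∈ (𝒟ᵒ : Set ℍ), Fc Th3 z ≠ 0 := by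
  have h1 : Tendsto (fun y : ℝ => qq (y * I)) atTop (𝓝 0) := by
    rw [tendsto_zero_iff_norm_tendsto_zero]
    simp only [norm_qq, mul_im, ofReal_re, Complex.I_im, mul_one, ofReal_im, Complex.I_re,
      mul_zero, add_zero]
    exact Real.tendsto_exp_neg_atTop_nhds_zero.comp
      (tendsto_id.const_mul_atTop (by positivity : 0 < 2 * π))
  obtain ⟨y, h2, h3⟩ := ((h1.eventually pF_ne).and (eventually_gt_atTop 1)).exists
  have hy : 0 < ((y : ℂ) * I).im := by simpa using by linarith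
  refine ⟨⟨y * I, hy⟩, ⟨?_, ?_⟩, ?_⟩
  · simpa [Complex.normSq_apply] using by nlinarith
  · simp [UpperHalfPlane.re]
  · have h4 := mul_ne_zero (show qq (y * I) ≠ 0 from Complex.exp_ne_zero _) h2
    rw [← ev_pf (norm_qq_lt hy)] at h4
    rw [(F_form' T3).eq_ev hy]
    exact h4

/-- **block O** -/
theorem orthStmt : OrthStmt := by
  have i1 := integrable_finsetSum Finset.univ fun i _ => form_int ec_form i
  have i2 := integrable_finsetSum Finset.univ fun i _ => form_int (F_form' T3) i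
  refine ⟨i1, i2, orth_zero, ?_⟩
  set φ : ℍ → ℝ := fun z => ∑ i : Option (Fin 17),
    normSq (Fc Th3 (cos17 i • z : ℍ)) * (cos17 i • z : ℍ).im ^ 2 with hφ
  have h1 : ∀ z, petI (Fc Th3) z = φ z := by
    intro z
    simp only [petI, hφ, Complex.mul_conj]
    push_cast
    rfl
  have h0 : ∀ (z : ℍ) (i : Option (Fin 17)),
      0 ≤ normSq (Fc Th3 (cos17 i • z : ℍ)) * (cos17 i • z : ℍ).im ^ 2 := fun z i =>
    mul_nonneg (normSq_nonneg _) (sq_nonneg _)
  refine ⟨∫ z in 𝒟, φ z, ?_, by simp only [h1]; exact integral_ofReal⟩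
  have h2 : IntegrableOn φ 𝒟 := by
    have h3 : IntegrableOn (petI (Fc Th3)) 𝒟 := i2
    rw [funext h1] at h3
    have h4 := h3.re
    simp only [RCLike.re_to_complex, ofReal_re] at h4
    exact h4
  rw [setIntegral_pos_iff_support_of_nonneg_ae
    (Eventually.of_forall fun z => Finset.sum_nonneg fun i _ => h0 z i) h2]
  obtain ⟨z, hz, hz'⟩ := exists_fdo
  refine (P004N.T3.open_pos (U := {z : ℍ | Fc Th3 z ≠ 0} ∩ 𝒟ᵒ)
    ((isOpen_ne_fun (sum_cont (F_form' T3).sum) continuous_const).inter ModularGroup.isOpen_fdo)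
    ⟨z, hz', hz⟩).trans_le (measure_mono fun w hw => ⟨?_, ModularGroup.fdo_subset_fd hw.2⟩)
  refine ne_of_gt (Finset.sum_pos' (fun i _ => h0 w i) ⟨none, Finset.mem_univ _, ?_⟩)
  rw [cos17, one_smul]
  exact mul_pos (normSq_pos.2 hw.1) (pow_pos w.im_pos 2)

end Vale.Agent.P014K
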