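import Vale.Agent.P014F.Tw
import Vale.Agent.P014B.Iface2
import Vale.Agent.P014.H687.Isog2

/-!
# P014K: minimality and Tamagawa numbers of the positive twists of `X₀(17)`
-/

namespace Vale.Agent.P014K

open WeierstrassCurve Vale.Agent.P014 Vale.Agent.P014B Vale.Agent.P014F
open Vale.Agent.P014.H687.Isog (GW GW_map GW_Δ dis_vals)
open scoped Classical

theorem line_id {F : Type*} [Field F] {r₁ r₂ r₃ x₁ η₁ x₂ η₂ m x₃ : F}
    (h₁ : η₁ ^ 2 = (x₁ - r₁) * (x₁ - r₂) * (x₁ - r₃))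
    (h₂ : η₂ ^ 2 = (x₂ - r₁) * (x₂ - r₂) * (x₂ - r₃))
    (hm : (x₁ ≠ x₂ ∧ m * (x₁ - x₂) = η₁ - η₂) ∨ (x₁ = x₂ ∧ η₁ = η₂ ∧ η₁ ≠ 0 ∧
      2 * η₁ * m = (x₁ - r₁) * (x₁ - r₂) + (x₁ - r₁) * (x₁ - r₃) + (x₁ - r₂) * (x₁ - r₃)))
    (hx : x₃ = m ^ 2 + (r₁ + r₂ + r₃) - x₁ - x₂) :
    ∃ c, (x₁ - r₁) * (x₂ - r₁) * (x₃ - r₁) = c ^ 2 ∧
      (x₁ - r₁) * (x₂ - r₁) + (x₃ - r₁) * ((x₁ - r₁) + (x₂ - r₁)) =
        -(2 * m * c) + (r₁ - r₂) * (r₁ - r₃) := by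
  have ha : (x₁ - r₁) * (x₁ - r₂) + (x₁ - r₁) * (x₁ - r₃) + (x₁ - r₂) * (x₁ - r₃) - 2 * m * η₁ =
      (x₁ - x₂) * (x₁ - x₃) := by
    rcases hm with ⟨hne, hm⟩ | ⟨rfl, rfl, -, hm⟩
    · refine mul_left_cancel₀ (sub_ne_zero.2 hne) ?_
      rw [hx]
      linear_combination h₂ - h₁ - (η₂ + m * (x₂ - x₁) + η₁) * hm
    · linear_combination -hm
  rw [hx] at ha ⊢
  exact ⟨η₁ - m * (x₁ - r₁), by linear_combination -(x₁ - r₁) * ha - h₁, by linear_combination -ha⟩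

variable {p : ℕ} [Fact p.Prime]

theorem big_aux {X Y Z m c a δ : ℚ_[p]} (h2 : ‖(2 : ℚ_[p])‖ = 1) (ha : ‖a‖ = 1) (hδ : ‖δ‖ < 1)
    (hY : 1 ≤ ‖Y‖) (hXY : ‖Y‖ ≤ ‖X‖) (hZ : ‖Z‖ < 1) (i1 : X * Y * Z = c ^ 2)
    (i2 : X * Y + Z * (X + Y) = -(2 * m * c) + a * δ) (i3 : X + Y + Z = m ^ 2 - (a + δ)) :
    False := by
  have hX : 1 ≤ ‖X‖ := hY.trans hXY
  have s1 : ‖X + Y‖ ≤ ‖X‖ := (Padic.nonarchimedean X Y).trans (max_le le_rfl hXY)
  have s2 : ‖X‖ ≤ ‖X‖ * ‖Y‖ := le_mul_of_one_le_right (by linarith) hY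
  have s3 : ‖Z * (X + Y)‖ < ‖X * Y‖ := by
    rw [norm_mul, norm_mul]
    nlinarith [norm_nonneg Z, norm_nonneg (X + Y)]
  have s4 := norm_add_left s3
  have s5 : ‖a * δ‖ < 1 := nlt_mul ha.le hδ
  have s6 : ‖-(2 * m * c)‖ = ‖X * Y‖ := by
    have : -(2 * m * c) = X * Y + Z * (X + Y) - a * δ := by linear_combination -i2
    rw [this, norm_sub_left, s4]
    rw [s4, norm_mul X]
    linarith
  rw [norm_neg, norm_mul, norm_mul, h2, one_mul, norm_mul] at s6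
  have s7 := congrArg norm i1
  rw [norm_mul, norm_mul, norm_pow] at s7
  have s8 : ‖X‖ * ‖Y‖ < ‖m‖ ^ 2 := by
    by_contra hc
    push Not at hc
    have e : (‖X‖ * ‖Y‖) ^ 2 = ‖m‖ ^ 2 * (‖X‖ * ‖Y‖ * ‖Z‖) := by rw [s7, ← s6]; ring
    have : ‖m‖ ^ 2 * (‖X‖ * ‖Y‖ * ‖Z‖) ≤ ‖X‖ * ‖Y‖ * (‖X‖ * ‖Y‖ * ‖Z‖) := by gcongr
    nlinarith [mul_pos (mul_pos (show 0 < ‖X‖ * ‖Y‖ by nlinarith)
      (show 0 < ‖X‖ * ‖Y‖ by nlinarith)) (sub_pos.2 hZ)]
  have s9 : ‖X + Y + Z‖ ≤ ‖X‖ := (Padic.nonarchimedean _ _).trans (max_le s1 (by linarith))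
  rw [i3, norm_sub_left, norm_pow] at s9
  · linarith
  · rw [norm_pow]
    linarith [nle_add ha.le hδ.le]

variable {E : WeierstrassCurve ℚ} {r₁ r₂ r₃ : ℚ_[p]}

theorem ns_iff (S : Spl (E⁄ℚ_[p]) r₁ r₂ r₃) (h2 : ‖(2 : ℚ_[p])‖ = 1) (ha : ‖(E.a₁ : ℚ_[p])‖ ≤ 1)
    (h1 : ‖r₁‖ ≤ 1) (h12 : ‖r₁ - r₂‖ = 1) (n13 : ‖r₁ - r₃‖ < 1) {x η : ℚ_[p]}
    (h : η ^ 2 = (x - r₁) * (x - r₂) * (x - r₃)) :
    NonsingularReduction E p (pt (E⁄ℚ_[p]) x η) ↔ 1 ≤ ‖x - r₁‖ := by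
  rw [S.ns_pt h]
  have e2 : x - r₂ = x - r₁ + (r₁ - r₂) := by ring
  have e3 : x - r₃ = x - r₁ + (r₁ - r₃) := by ring
  have e0 : x = x - r₁ + r₁ := by ring
  rcases lt_trichotomy ‖x - r₁‖ 1 with hx | hx | hx
  · have a2 : ‖x - r₂‖ = 1 := by rw [e2, add_comm, norm_add_left (h12 ▸ hx), h12]
    have a3 : ‖x - r₃‖ < 1 := e3 ▸ nlt_add hx n13
    have aη : ‖η‖ < 1 := nlt_of_sq (h ▸ nlt_mul (nlt_mul' hx a2.le).le a3)
    refine iff_of_false ?_ hx.not_ge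
    push Not
    exact ⟨e0 ▸ nle_add hx.le h1, nlt_sub (nlt_mul ha aη) (nlt_add (nlt_add (nlt_mul' hx a2.le)
      (nlt_mul' hx a3.le)) (nlt_mul a2.le a3)), nlt_mul h2.le aη⟩
  · have a3 : ‖x - r₃‖ = 1 := by rw [e3, norm_add_left (hx ▸ n13), hx]
    refine iff_of_true (.inr ?_) hx.ge
    rcases (show ‖x - r₂‖ ≤ 1 from e2 ▸ nle_add hx.le h12.le).lt_or_eq with a2 | a2
    · have aη : ‖η‖ < 1 := nlt_of_sq (h ▸ nlt_mul' (nlt_mul hx.le a2) a3.le)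
      left
      have : (E.a₁ : ℚ_[p]) * η -
          ((x - r₁) * (x - r₂) + (x - r₁) * (x - r₃) + (x - r₂) * (x - r₃)) =
          -((x - r₁) * (x - r₃)) + (E.a₁ * η - (x - r₁) * (x - r₂) - (x - r₂) * (x - r₃)) := by
        ring
      have b : ‖-((x - r₁) * (x - r₃))‖ = 1 := by rw [norm_neg, norm_mul, hx, a3, one_mul]
      rw [this, norm_add_left, b]
      rw [b]
      exact nlt_sub (nlt_sub (nlt_mul ha aη) (nlt_mul hx.le a2)) (nlt_mul' a2 a3.le)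
    · right
      rw [norm_mul, h2, none_of_sq (by rw [h, norm_mul, norm_mul, hx, a2, a3]; simp), one_mul]
  · refine iff_of_true (.inl ?_) hx.le
    rwa [e0, norm_add_left (h1.trans_lt hx)]

/-- the points with nonsingular reduction of a curve with multiplicative reduction -/
def nsGrp (S : Spl (E⁄ℚ_[p]) r₁ r₂ r₃) (h2 : ‖(2 : ℚ_[p])‖ = 1) (ha : ‖(E.a₁ : ℚ_[p])‖ ≤ 1)
    (h1 : ‖r₁‖ ≤ 1) (h12 : ‖r₁ - r₂‖ = 1) (n13 : ‖r₁ - r₃‖ < 1) :
    AddSubgroup (E⁄ℚ_[p]).toAffine.Point where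
  carrier := {P | NonsingularReduction E p P}
  zero_mem' := trivial
  neg_mem' := by
    intro P hP
    rcases S.cases P with rfl | ⟨x, η, h, rfl⟩
    · exact hP
    · rw [S.neg_pt h]
      exact (ns_iff S h2 ha h1 h12 n13 (by rw [← h]; ring)).2
        ((ns_iff S h2 ha h1 h12 n13 h).1 hP)
  add_mem' := by
    intro P Q hP hQ
    rcases S.cases P with rfl | ⟨x₁, η₁, h₁, rfl⟩
    · rwa [zero_add]
    rcases S.cases Q with rfl | ⟨x₂, η₂, h₂, rfl⟩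
    · rwa [add_zero]
    rcases exists_slope h₁ h₂ with ⟨rfl, rfl⟩ | ⟨m, hm⟩
    · rw [S.add_neg_pt h₁]
      trivial
    obtain ⟨x₃, hx⟩ : ∃ x₃, x₃ = m ^ 2 + (r₁ + r₂ + r₃) - x₁ - x₂ := ⟨_, rfl⟩
    obtain ⟨h₃, e⟩ := S.add_pt h₁ h₂ hm hx rfl
    obtain ⟨c, i1, i2⟩ := line_id h₁ h₂ hm hx
    have a₁ := (ns_iff S h2 ha h1 h12 n13 h₁).1 hP
    have a₂ := (ns_iff S h2 ha h1 h12 n13 h₂).1 hQ
    rw [e]
    refine (ns_iff S h2 ha h1 h12 n13 h₃).2 (not_lt.1 fun a₃ => ?_)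
    rcases le_total ‖x₂ - r₁‖ ‖x₁ - r₁‖ with b | b
    · exact big_aux h2 h12 n13 a₂ b a₃ i1 i2 (by rw [hx]; ring)
    · exact big_aux (m := m) h2 h12 n13 a₁ b a₃ (by rw [← i1]; ring) (by rw [← i2]; ring)
        (by rw [hx]; ring)

/-- split multiplicative reduction of type `I₄` -/
theorem tam_I4 (S : Spl (E⁄ℚ_[p]) r₁ r₂ r₃) (h2 : ‖(2 : ℚ_[p])‖ = 1) (ha : ‖(E.a₁ : ℚ_[p])‖ ≤ 1)
    (h1 : ‖r₁‖ ≤ 1) {u v : ℚ_[p]} (hu : r₁ - r₂ = u ^ 2) (hv : r₁ - r₃ = v ^ 2) (nu : ‖u‖ = 1)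
    (nv : v.valuation = 1) : tamagawa E p = 4 := by
  have h12 : ‖r₁ - r₂‖ = 1 := by rw [hu, norm_pow, nu, one_pow]
  have h13 : (r₁ - r₃).valuation = 2 := by rw [hv, Padic.valuation_pow, nv]; rfl
  have n13 : ‖r₁ - r₃‖ < 1 := norm_lt_of_val (by omega)
  have u0 : u ≠ 0 := fun e => by simp [e] at nu
  have v0 : v ≠ 0 := fun e => by simp [e] at nv
  have t1 : ((r₁ - r₂) * (r₁ - r₃)).valuation = 2 := by
    rw [Padic.valuation_mul (sub_ne_zero.2 S.n12) (sub_ne_zero.2 S.n13), val_unit h12, h13]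
    rfl
  let H := nsGrp S h2 ha h1 h12 n13
  have mem {x η : ℚ_[p]} (h : η ^ 2 = (x - r₁) * (x - r₂) * (x - r₃)) :
      pt (E⁄ℚ_[p]) x η ∈ H ↔ 1 ≤ ‖x - r₁‖ := ns_iff S h2 ha h1 h12 n13 h
  have hT : (0 : ℚ_[p]) ^ 2 = (r₁ - r₁) * (r₁ - r₂) * (r₁ - r₃) := by ring
  have hle : H ≤ S.par.ker := by
    intro P hP
    rcases S.cases P with rfl | ⟨x, η, h, rfl⟩
    · exact zero_mem _
    have hx := (mem h).1 hP
    have hr : x ≠ r₁ := fun e => by simp [e] at hx; linarith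
    rw [AddMonoidHom.mem_ker, S.par_pt h, if_neg hr]
    rcases hx.eq_or_lt with hx | hx
    · rw [val_unit hx.symm]
      exact dvd_zero _
    · refine even_of_three (sub_ne_zero.2 hr) h ?_ ?_
      · rw [show x - r₂ = x - r₁ + (r₁ - r₂) by ring, norm_add_left (h12 ▸ hx)]
      · rw [show x - r₃ = x - r₁ + (r₁ - r₃) by ring, norm_add_left (n13.trans hx)]
  have i1 : H.relIndex S.par.ker = 2 := by
    rw [AddSubgroup.relIndex_eq_two_iff_exists_notMem_and]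
    refine ⟨pt _ r₁ 0, ?_, ?_, fun P hP => ?_⟩
    · rw [AddMonoidHom.mem_ker, S.par_pt hT, if_pos rfl, t1]
    · rw [mem hT]
      simp
    rcases S.cases P with rfl | ⟨x, η, h, rfl⟩
    · exact .inr (zero_mem _)
    rw [AddMonoidHom.mem_ker, S.par_pt h] at hP
    rcases lt_or_ge ‖x - r₁‖ 1 with hx | hx
    swap
    · exact .inr ((mem h).2 hx)
    left
    rcases exists_slope h hT with ⟨rfl, e⟩ | ⟨m, hm⟩
    · rw [e, S.add_neg_pt h]
      exact zero_mem _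
    have hr : x ≠ r₁ := by
      rcases hm with hm | ⟨-, e, e', -⟩
      exacts [hm.1, absurd e e']
    obtain ⟨x₃, hx3⟩ : ∃ x₃, x₃ = m ^ 2 + (r₁ + r₂ + r₃) - x - r₁ := ⟨_, rfl⟩
    obtain ⟨h₃, e⟩ := S.add_pt h hT hm hx3 rfl
    obtain ⟨c, j1, j2⟩ := line_id h hT hm hx3
    have c0 : c = 0 := pow_eq_zero_iff two_ne_zero |>.1 (by rw [← j1]; ring)
    have j3 : (x₃ - r₁) * (x - r₁) = (r₁ - r₂) * (r₁ - r₃) := by
      rw [c0] at j2
      linear_combination j2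
    rw [e, mem h₃]
    rw [if_neg hr] at hP
    have X0 := sub_ne_zero.2 hr
    have Z0 : x₃ - r₁ ≠ 0 := left_ne_zero_of_mul
      (j3 ▸ mul_ne_zero (sub_ne_zero.2 S.n12) (sub_ne_zero.2 S.n13))
    by_contra hc
    have w1 := val_pos X0 hx
    have w2 := val_pos Z0 (not_le.1 hc)
    rw [← j3, Padic.valuation_mul Z0 X0] at t1
    omega
  have i2 : S.par.ker.index = 2 := by
    have hQ : (u * v * (u + v)) ^ 2 = (r₁ + u * v - r₁) * (r₁ + u * v - r₂) * (r₁ + u * v - r₃) := by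
      rw [show r₁ + u * v - r₂ = u * v + (r₁ - r₂) by ring,
        show r₁ + u * v - r₃ = u * v + (r₁ - r₃) by ring, hu, hv]
      ring
    have : S.par (pt _ (r₁ + u * v) (u * v * (u + v))) ≠ 0 := by
      rw [Ne, S.par_pt hQ, if_neg (by simp [u0, v0]), add_sub_cancel_left,
        Padic.valuation_mul u0 v0, val_unit nu, nv]
      norm_num
    have k : ∀ c d : ZMod 2, d ≠ 0 → c = 0 ∨ c = d := by decide
    rw [AddSubgroup.index_ker, AddMonoidHom.range_eq_top.2 fun c => ?_, AddSubgroup.card_top]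
    · simp
    · rcases k c _ this with rfl | rfl
      exacts [⟨0, map_zero _⟩, ⟨_, rfl⟩]
  have := AddSubgroup.relIndex_mul_index hle
  rw [i1, i2] at this
  rw [tamagawa]
  exact (congrArg AddSubgroup.index (AddSubgroup.closure_eq H)).trans this.symm

/-- square roots of integers in `ℚ_p` -/
theorem exists_sqrt (hp : p ≠ 2) {z : ℤ} (h : jacobiSym z p = 1) :
    ∃ u : ℚ_[p], u ^ 2 = z ∧ ‖u‖ = 1 := by
  obtain ⟨a, ha⟩ := ZMod.isSquare_of_jacobiSym_eq_one h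
  obtain ⟨b, rfl⟩ := ZMod.intCast_surjective a
  have hz : ¬ (p : ℤ) ∣ z := fun e => by
    rw [jacobiSym.mod_left, Int.emod_eq_zero_of_dvd e,
      jacobiSym.zero_left (Fact.out : p.Prime).one_lt] at h
    exact zero_ne_one h
  have h1 : (p : ℤ) ∣ b ^ 2 - z := by
    rw [← ZMod.intCast_zmod_eq_zero_iff_dvd]
    push_cast
    rw [ha]
    ring
  have hb : ¬ (p : ℤ) ∣ b := fun e => hz (by
    have := dvd_sub (e.mul_left b) h1
    rwa [show b * b - (b ^ 2 - z) = z by ring] at this)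
  have h2 : ‖(2 * b : ℤ_[p])‖ = 1 := by
    change ‖((2 * b : ℤ_[p]) : ℚ_[p])‖ = 1
    push_cast
    rw [norm_mul, nint hb, mul_one]
    exact ntwo hp
  obtain ⟨u, hu, -⟩ := hensels_lemma (R := ℤ) (F := Polynomial.X ^ 2 - Polynomial.C z)
    (a := (b : ℤ_[p])) (by
      have : ‖((b ^ 2 - z : ℤ) : ℤ_[p])‖ < 1 := PadicInt.norm_int_lt_one_iff_dvd _ |>.2 h1
      simpa [h2, map_ofNat] using this)
  have e : (u : ℚ_[p]) ^ 2 = z := by
    have : u ^ 2 = z := by simpa [sub_eq_zero] using hu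
    exact_mod_cast congrArg (fun x : ℤ_[p] => (x : ℚ_[p])) this
  exact ⟨u, e, none_of_sq (e ▸ nint hz)⟩

theorem spl_x17 (k : ℤ) (h : 4 * k + 1 ≠ 0) {F : Type*} [Field F] [Algebra ℚ F] {i : F}
    (hi : i ^ 2 = -1) : Spl ((x17 k)⁄F) (11 * ((4 * k + 1 : ℤ) : F) / 4)
      (((4 * k + 1 : ℤ) : F) * (-1 - 2 * i)) (((4 * k + 1 : ℤ) : F) * (-1 + 2 * i)) := by
  have := algebraRat.charZero F
  have h0 : ((4 * k + 1 : ℤ) : F) ≠ 0 := Int.cast_ne_zero.2 h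
  refine ⟨?_, ?_, ?_, fun e => ?_, fun e => ?_, fun e => ?_⟩
  · simp [x17]
    ring
  · simp [x17]
    linear_combination 8 * (4 * k + 1 : F) ^ 2 * hi
  · simp [x17]
    linear_combination -44 * (4 * k + 1 : F) ^ 3 * hi
  · have : (15 + 8 * i : F) = 0 := mul_left_cancel₀ h0 (by linear_combination 4 * e)
    have : (289 : F) = 0 := by linear_combination (15 - 8 * i) * this + 64 * hi
    norm_num at this
  · have : (15 - 8 * i : F) = 0 := mul_left_cancel₀ h0 (by linear_combination 4 * e)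
    have : (289 : F) = 0 := by linear_combination (15 + 8 * i) * this + 64 * hi
    norm_num at this
  · have : i = 0 := mul_left_cancel₀ h0 (by linear_combination -e / 4)
    rw [this] at hi
    norm_num at hi

theorem x17_int (k : ℤ) : x17 k = (GW ℤ (-1) (-14) k).map (Int.castRingHom ℚ) := by
  rw [x17_eq, GW_map]

theorem minimal_x17 {k : ℤ} (hs : Squarefree (4 * k + 1)) (h17 : ¬ 17 ∣ 4 * k + 1) :
    GlobalMinimal (x17 k) := by
  refine ⟨⟨_, x17_int k⟩, fun C ⟨W, hW⟩ => ?_⟩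
  have h1 : (C • x17 k).Δ = (W.Δ : ℚ) := by
    rw [hW, baseChange, map_Δ]
    rfl
  have h2 := variableChange_Δ (x17 k) C
  obtain ⟨v, hv⟩ : ∃ v : ℚ, v = ↑C.u⁻¹ := ⟨_, rfl⟩
  have v0 : v ≠ 0 := hv ▸ Units.ne_zero _
  rw [← hv] at h2
  have hd : v.den = 1 := by
    by_contra hd
    obtain ⟨q, hq, hqd⟩ := Nat.exists_prime_and_dvd hd
    have hq' := Nat.prime_iff_prime_int.1 hq
    rw [h1, x17_eq, GW_Δ, dis_vals.1] at h2
    have h3 : W.Δ * (v.den : ℤ) ^ 12 = v.num ^ 12 * (-83521 * (4 * k + 1) ^ 6) := by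
      have : (v.num : ℚ) = v * v.den := (Rat.mul_den_eq_num v).symm
      refine Int.cast_injective (α := ℚ) ?_
      rw [Int.cast_mul, Int.cast_mul, h2, Int.cast_pow, Int.cast_pow, this, Int.cast_natCast]
      ring
    have h4 : (q : ℤ) ^ 12 ∣ v.num ^ 12 * (-83521 * (4 * k + 1) ^ 6) :=
      h3 ▸ Dvd.dvd.mul_left (pow_dvd_pow_of_dvd (Int.natCast_dvd_natCast.2 hqd) 12) _
    have h5 : ¬ (q : ℤ) ∣ v.num ^ 12 := fun h => hq.one_lt.ne' (Nat.eq_one_of_dvd_coprimes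
      v.reduced (Int.natCast_dvd.1 (hq'.dvd_of_dvd_pow h)) hqd)
    have h6 := hq'.pow_dvd_of_dvd_mul_left 12 h5 h4
    by_cases h7 : (q : ℤ) ∣ -83521
    · have : q = 17 := (Nat.prime_dvd_prime_iff_eq hq (by norm_num)).1
        (hq.dvd_of_dvd_pow (n := 4) (Int.natCast_dvd_natCast.1 (dvd_neg.1 h7)))
      subst this
      have h8 : (-83521 : ℤ) * 17 ∣ -83521 * (4 * k + 1) ^ 6 := Dvd.dvd.trans (by norm_num) h6
      exact h17 (hq'.dvd_of_dvd_pow ((mul_dvd_mul_iff_left (by norm_num)).1 h8))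
    · have h8 := hq'.pow_dvd_of_dvd_mul_left 12 h7 h6
      rw [show 12 = 2 * 6 from rfl, pow_mul, Int.pow_dvd_pow_iff (by norm_num), sq] at h8
      exact hq'.not_isUnit (hs _ h8)
  have h3 : 1 ≤ |v| := by
    rw [← Rat.coe_int_num_of_den_eq_one hd]
    exact_mod_cast Int.one_le_abs (Rat.num_ne_zero.2 v0)
  rw [h2, abs_mul, abs_pow]
  exact le_mul_of_one_le_left (abs_nonneg _) (one_le_pow₀ h3)

theorem nle_four_sub {i : ℚ_[p]} (hi : ‖i‖ = 1) : ‖4 - i‖ ≤ 1 := by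
  rw [sub_eq_add_neg]
  exact nle_add (by simpa using Padic.norm_int_le_one (p := p) 4) (by rw [norm_neg, hi])

theorem exists_i17 [Fact (Nat.Prime 17)] :
    ∃ i : ℚ_[17], i ^ 2 = -1 ∧ ‖4 + i‖ = 1 ∧ (4 - i).valuation = 1 := by
  have key : ∀ i : ℚ_[17], i ^ 2 = -1 → ‖4 - i‖ < 1 → ‖4 + i‖ = 1 ∧ (4 - i).valuation = 1 := by
    intro i hi h
    have h8 : ‖(8 : ℚ_[17])‖ = 1 := by simpa using nint (p := 17) (z := 8) (by norm_num)
    have h1 : ‖4 + i‖ = 1 := by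
      rw [show 4 + i = 8 - (4 - i) by ring, norm_sub_left (h8 ▸ h), h8]
    have e : (4 - i) * (4 + i) = (17 : ℕ) := by
      push_cast
      linear_combination -hi
    have h2 := congrArg Padic.valuation e
    have e0 : (4 - i) * (4 + i) ≠ 0 := by
      rw [e]
      norm_num
    rw [Padic.valuation_mul (left_ne_zero_of_mul e0) (right_ne_zero_of_mul e0), val_unit h1,
      Padic.valuation_p] at h2
    exact ⟨h1, by omega⟩
  obtain ⟨i, hi, ni⟩ := exists_sqrt (p := 17) (by norm_num) (z := -1) (by norm_num)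
  push_cast at hi
  rcases (nle_four_sub ni).lt_or_eq with h | h
  · exact ⟨i, hi, key i hi h⟩
  · refine ⟨-i, by rwa [neg_sq], key _ (by rwa [neg_sq]) ?_⟩
    have e : (4 - i) * (4 - -i) = (17 : ℕ) := by
      push_cast
      linear_combination -hi
    have := congrArg norm e
    rw [norm_mul, h, one_mul] at this
    rw [this]
    exact Padic.norm_p_lt_one

theorem tam_x17_17 [Fact (Nat.Prime 17)] {k : ℤ} (hJ : jacobiSym (4 * k + 1) 17 = 1) :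
    tamagawa (x17 k) 17 = 4 := by
  obtain ⟨i, hi, n1, n2⟩ := exists_i17
  obtain ⟨e, he, ne⟩ := exists_sqrt (p := 17) (by norm_num) hJ
  have h2 := ntwo (p := 17) (by norm_num)
  have h4 := nfour (p := 17) (by norm_num)
  have ne2 : ‖e / 2‖ = 1 := by rw [norm_div, ne, h2, div_one]
  refine tam_I4 (spl_x17 k (by omega) hi) h2 (by simp [x17]) ?_ (u := e / 2 * (4 + i))
    (v := e / 2 * (4 - i)) ?_ ?_ ?_ ?_
  · rw [norm_div, h4, div_one]
    simpa using Padic.norm_int_le_one (p := 17) (11 * (4 * k + 1))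
  · rw [← he]
    linear_combination -e ^ 2 / 4 * hi
  · rw [← he]
    linear_combination -e ^ 2 / 4 * hi
  · rw [norm_mul, ne2, n1, one_mul]
  · rw [Padic.valuation_mul (fun h => by simp [h] at ne2) (fun h => by simp [h] at n2),
      val_unit ne2, n2, zero_add]

theorem tam_x17_dvd {k : ℤ} (hs : Squarefree (4 * k + 1)) (h17 : ¬ 17 ∣ 4 * k + 1)
    (hp : (p : ℤ) ∣ 4 * k + 1) (h41 : p % 4 = 1) : tamagawa (x17 k) p = 4 := by
  have p2 : p ≠ 2 := by omega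
  have p17 : ¬ (p : ℤ) ∣ 17 := fun e => h17 (by
    have := (Nat.prime_dvd_prime_iff_eq Fact.out (by norm_num)).1 (Int.natCast_dvd_natCast.1 e)
    subst this
    exact hp)
  have h4 := nfour p2
  obtain ⟨i, hi, ni⟩ := exists_sqrt p2 (z := -1) (by
    rw [jacobiSym.at_neg_one ((Fact.out : p.Prime).odd_of_ne_two p2), ZMod.χ₄_nat_one_mod_four h41])
  push_cast at hi
  obtain ⟨D, hD⟩ := hp
  have hD' : ‖(D : ℚ_[p])‖ = 1 := nint fun ⟨c, e⟩ =>
    (Nat.prime_iff_prime_int.1 Fact.out).not_isUnit (hs p ⟨c, by rw [hD, e, mul_assoc]⟩)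
  have h17' : ‖(17 : ℚ_[p])‖ = 1 := by simpa using nint p17
  have a1 := nle_four_sub ni
  have a2 := nle_four_sub (i := -i) (by rwa [norm_neg])
  have a3 : ‖4 - i‖ * ‖4 - -i‖ = 1 := by
    rw [← norm_mul, ← h17']
    congr 1
    linear_combination -hi
  have b1 : ‖4 - i‖ = 1 := le_antisymm a1 (by nlinarith [norm_nonneg (4 - i)])
  have b2 : ‖4 - -i‖ = 1 := by rwa [b1, one_mul] at a3
  refine tam_four (spl_x17 k (by omega) hi) (ntwo p2) (by simp [x17]) ?_ ?_ ?_ ?_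
  all_goals rw [hD]
  · rw [show 11 * ((p * D : ℤ) : ℚ_[p]) / 4 = p * ((11 * D : ℤ) : ℚ_[p]) / 4 by push_cast; ring,
      norm_div, h4, div_one]
    exact nlt_mul' Padic.norm_p_lt_one (Padic.norm_int_le_one _)
  · rw [show 11 * ((p * D : ℤ) : ℚ_[p]) / 4 - ((p * D : ℤ) : ℚ_[p]) * (-1 - 2 * i) =
      p * (D * (4 - -i) ^ 2 / 4) by push_cast; linear_combination -(p * D / 4 : ℚ_[p]) * hi,
      val_p_mul (by rw [norm_div, h4, norm_mul, norm_pow, hD', b2]; norm_num)]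
  · rw [show 11 * ((p * D : ℤ) : ℚ_[p]) / 4 - ((p * D : ℤ) : ℚ_[p]) * (-1 + 2 * i) =
      p * (D * (4 - i) ^ 2 / 4) by push_cast; linear_combination -(p * D / 4 : ℚ_[p]) * hi,
      val_p_mul (by rw [norm_div, h4, norm_mul, norm_pow, hD', b1]; norm_num)]
  · rw [show ((p * D : ℤ) : ℚ_[p]) * (-1 - 2 * i) - ((p * D : ℤ) : ℚ_[p]) * (-1 + 2 * i) =
      p * (-(4 * D * i)) by push_cast; ring,
      val_p_mul (by rw [norm_neg, norm_mul, norm_mul, hD', h4, ni]; norm_num)]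

theorem tam_x17_good {k : ℤ} (p17 : p ≠ 17) (hp : ¬ (p : ℤ) ∣ 4 * k + 1) :
    tamagawa (x17 k) p = 1 := by
  rw [x17_int]
  refine tam_one _ fun h => ?_
  have hq := Nat.prime_iff_prime_int.1 (Fact.out : p.Prime)
  rw [GW_Δ, Int.cast_id, dis_vals.1] at h
  rcases hq.dvd_or_dvd h with h | h
  · exact p17 ((Nat.prime_dvd_prime_iff_eq Fact.out (by norm_num)).1
      ((Fact.out : p.Prime).dvd_of_dvd_pow (n := 4) (Int.natCast_dvd_natCast.1 (dvd_neg.1 h))))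
  · exact hp (hq.dvd_of_dvd_pow h)

theorem jac_prod {d : ℕ} (hd : d ≠ 0) (h : ∀ p : ℕ, p.Prime → p ∣ d → jacobiSym p 17 = 1) :
    jacobiSym d 17 = 1 := by
  induction d using Nat.recOnMul with
  | zero => exact absurd rfl hd
  | one => simp
  | prime q hq => exact h q hq dvd_rfl
  | mul a b ha hb =>
    rw [Nat.cast_mul, jacobiSym.mul_left,
      ha (left_ne_zero_of_mul hd) fun q hq e => h q hq (e.mul_right _),
      hb (right_ne_zero_of_mul hd) fun q hq e => h q hq (e.mul_left _), one_mul]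

theorem not17 {d : ℕ} (h : Fam2 d) : ¬ 17 ∣ d := fun e => by
  have := (h.2.1 17 (by norm_num) e).2
  norm_num at this

theorem tam2 : Tam2Stmt := by
  intro k n hk hF
  have hs := hF.1
  have h17 := not17 hF
  have hs' : Squarefree (4 * k + 1) := hk ▸ Int.squarefree_natCast.2 hs
  have hd (q : ℕ) : (q : ℤ) ∣ 4 * k + 1 ↔ q ∣ n := by rw [hk, Int.natCast_dvd_natCast]
  have h17' : ¬ 17 ∣ 4 * k + 1 := fun e => h17 ((hd 17).1 e)
  refine ⟨minimal_x17 hs' h17', ?_⟩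
  let g : ℕ → ℕ := fun q => if q = 17 then 4 else if q ∣ n then 4 else 1
  have e (q : Nat.Primes) : (haveI : Fact (q : ℕ).Prime := ⟨q.2⟩; tamagawa (x17 k) q) = g q := by
    obtain ⟨q, hq⟩ := q
    have : Fact q.Prime := ⟨hq⟩
    simp only [g]
    split_ifs with h1 h2
    · subst h1
      exact tam_x17_17 (hk ▸ jac_prod hs.ne_zero fun p hp e => (hF.2.1 p hp e).2)
    · exact tam_x17_dvd hs' h17' ((hd q).2 h2) (hF.2.1 q hq h2).1
    · exact tam_x17_good h1 fun e => h2 ((hd q).1 e)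
  have m : 17 ∉ n.primeFactors := fun e => h17 (Nat.dvd_of_mem_primeFactors e)
  rw [tamagawaProduct, finprod_congr e, finprod_eq_prod_of_mulSupport_subset
    (s := (insert 17 n.primeFactors).subtype Nat.Prime) (fun q : Nat.Primes => g q) ?_]
  · refine (Finset.prod_subtype_of_mem g fun x hx => ?_).trans ?_
    · rcases Finset.mem_insert.1 hx with rfl | hx
      exacts [by norm_num, Nat.prime_of_mem_primeFactors hx]
    · rw [Finset.prod_insert m, ← Finset.prod_const]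
      congr 1
      refine Finset.prod_congr rfl fun q hq => ?_
      simp only [g]
      rw [if_neg (by rintro rfl; exact m hq), if_pos (Nat.dvd_of_mem_primeFactors hq)]
  · intro q hq
    refine Finset.mem_coe.2 (Finset.mem_subtype.2 ?_)
    rw [Finset.mem_insert, Nat.mem_primeFactors]
    by_contra hc
    push Not at hc
    refine hq ?_
    simp only [g]
    rw [if_neg hc.1, if_neg fun e => hs.ne_zero (hc.2 q.2 e)]

end Vale.Agent.P014K
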