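import Vale.Agent.P014K.Pos
import Vale.Agent.P014K.Tam2

/-!
# P014K: periods, base value and `L`-function of the positive twists of `X₀(17)`
-/

namespace Vale.Agent.P014K

open Vale.Agent.P014 Vale.Agent.P014B Vale.Agent.P014G

theorem period_x17 : realPeriod (x17 0) = wR := by
  rw [x17_eq, period_one 0 1 one_pos (by norm_num)]
  simp

theorem base2 : Base2Stmt := by
  rw [Base2Stmt, period_x17]
  refine ⟨gen_p.pos, fun k d hk => ?_, fun _ => base_one⟩
  rw [x17_eq, period_one k d (by omega) hk]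

theorem hw_x17 {k : ℤ} {d : ℕ} (hk : 4 * k + 1 = d) (hF : Fam2 d) (L : ℂ → ℂ) :
    IsHasseWeil (x17 k) L ↔ IsHasseWeil (tw k) L := by
  rw [x17_eq]
  exact hw_one (hk ▸ Int.squarefree_natCast.2 hF.1)
    (fun e => not17 hF (Int.natCast_dvd_natCast.1 (hk ▸ e))) L

end Vale.Agent.P014K
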