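import Vale.Agent.P017.H185.Fam

/-!
# P014K: infinitely many admissible `n` of every type
-/

namespace Vale.Agent.P014K

open Vale.Agent.P017.H185 NumberField

/-- the condition of Rédei in a strong form, with a root `q` -/
def SR (d q : ℕ) : Prop := ∀ a : ℕ, a ∣ d → ¬ q ∣ a →
  (∀ p : ℕ, p.Prime → p ∣ d → p ≠ q →
    (¬ p ∣ a → IsSquare (a : ZMod p)) ∧ (p ∣ a → IsSquare ((d / a : ℕ) : ZMod p))) → a = 1

theorem SR.redei {d q : ℕ} (hd : Squarefree d) (hq : q.Prime) (h : SR d q) : Redei d := by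
  intro a ha hl
  by_cases h1 : q ∣ a
  · right
    have h2 := h (d / a) (Nat.div_dvd_of_dvd ha) (fun h3 => by
      have h4 : q * q ∣ d := by
        rw [← Nat.mul_div_cancel' ha]
        exact Nat.mul_dvd_mul h1 h3
      exact hq.one_lt.ne' (Nat.isUnit_iff.1 (hd q h4))) fun p hp hpd _ => local_symm hd ha hl p hp hpd
    rw [← Nat.mul_div_cancel' ha, h2, mul_one]
  · exact Or.inl (h a ha h1 fun p hp hpd _ => hl p hp hpd)

theorem sq_cancel {r p x : ℕ} (h1 : (p : ZMod r) = 1) (h : IsSquare ((x * p : ℕ) : ZMod r)) :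
    IsSquare (x : ZMod r) := by
  rwa [Nat.cast_mul, h1, mul_one] at h

theorem SR.mul {d q p : ℕ} (h : SR d q) (hp : p.Prime) (hpd : ¬ p ∣ d) (hqd : q ∣ d)
    (h1 : ∀ r : ℕ, r.Prime → r ∣ d → r ≠ q → (p : ZMod r) = 1) (h2 : jacobiSym d p = -1) :
    SR (d * p) q := by
  intro a ha hqa hl
  by_cases hpa : p ∣ a
  · exfalso
    obtain ⟨a', rfl⟩ := hpa
    rw [mul_comm p] at ha hqa hl
    have h3 : d * p / (a' * p) = d / a' := Nat.mul_div_mul_right _ _ hp.pos
    have h4 := h a' (Nat.dvd_of_mul_dvd_mul_right hp.pos ha) (fun h5 => hqa (h5.mul_right _))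
      fun r hr hrd hrq => by
        have h5 := hl r hr (hrd.mul_right _) hrq
        refine ⟨fun h6 => sq_cancel (h1 r hr hrd hrq) (h5.1 fun h7 => ?_),
          fun h6 => h3 ▸ h5.2 (h6.mul_right _)⟩
        rcases hr.dvd_mul.1 h7 with h8 | h8
        · exact h6 h8
        · exact hpd ((Nat.prime_dvd_prime_iff_eq hr hp).1 h8 ▸ hrd)
    have h5 := (hl p hp (Dvd.intro_left _ rfl) (fun h6 => hpd (h6 ▸ hqd))).2 (Dvd.intro_left _ rfl)
    rw [h3, h4, Nat.div_one] at h5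
    rw [J_prime_one hp (by exact_mod_cast hpd) (by exact_mod_cast h5)] at h2
    norm_num at h2
  · have had : a ∣ d := ((Nat.Prime.coprime_iff_not_dvd hp).2 hpa).symm.dvd_of_dvd_mul_right ha
    refine h a had hqa fun r hr hrd hrq => ?_
    have h5 := hl r hr (hrd.mul_right _) hrq
    refine ⟨h5.1, fun h6 => sq_cancel (h1 r hr hrd hrq) ?_⟩
    rw [Nat.div_mul_right_comm had]
    exact h5.2 h6

theorem exists_prime_crt {m n s t : ℕ} (hm : m ≠ 0) (hn : n ≠ 0) (hmn : m.Coprime n)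
    (hs : s.Coprime m) (ht : t.Coprime n) (B : ℕ) :
    ∃ p > B, p.Prime ∧ p ≡ s [MOD m] ∧ p ≡ t [MOD n] := by
  obtain ⟨k, h1, h2⟩ := Nat.chineseRemainder hmn s t
  have : NeZero (m * n) := ⟨mul_ne_zero hm hn⟩
  obtain ⟨p, hpB, hp, h3⟩ := Nat.forall_exists_prime_gt_and_eq_mod (q := m * n)
    (a := (k : ZMod (m * n))) ((ZMod.isUnit_iff_coprime _ _).2
      (Nat.Coprime.mul_right (h1.gcd_eq.trans hs) (h2.gcd_eq.trans ht))) B
  have h4 : p ≡ k [MOD m * n] := (ZMod.natCast_eq_natCast_iff _ _ _).1 h3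
  exact ⟨p, hpB, hp, (h4.of_mul_right _).trans h1, (h4.of_mul_left _).trans h2⟩

theorem exists_ext {d q c : ℕ} (hd : Squarefree d) (h68 : d.Coprime 68) (hq : q.Prime)
    (hqd : q ∣ d) (hc : c.Coprime 68) (B : ℕ) : ∃ p > B, p.Prime ∧ p ≡ c [MOD 68] ∧ ¬ p ∣ d ∧
      (∀ r : ℕ, r.Prime → r ∣ d → r ≠ q → (p : ZMod r) = 1) ∧ jacobiSym d p = -1 := by
  obtain ⟨e, rfl⟩ := hqd
  have hF := Fact.mk hq
  have he0 : e ≠ 0 := right_ne_zero_of_mul hd.ne_zero
  have hq68 : q.Coprime 68 := h68.coprime_mul_right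
  have he68 : e.Coprime 68 := h68.coprime_mul_left
  have hq2 : q ≠ 2 := by
    rintro rfl
    norm_num at hq68
  have hqo : Odd q := hq.odd_of_ne_two hq2
  obtain ⟨k, k1, k2⟩ := Nat.chineseRemainder he68.symm c 1
  have hk : k.Coprime (68 * e) :=
    Nat.Coprime.mul_right (k1.gcd_eq.trans hc) (k2.gcd_eq.trans (Nat.gcd_one_left e))
  have hk4 : k % 2 = 1 := by
    have := Nat.coprime_two_right.1 (hk.coprime_dvd_right (Dvd.dvd.mul_right (by norm_num) e))
    exact Nat.odd_iff.1 this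
  have key : ∀ s : ℕ, s.Coprime q → ∃ p > B, p.Prime ∧ p ≡ c [MOD 68] ∧ ¬ p ∣ q * e ∧
      (∀ r : ℕ, r.Prime → r ∣ q * e → r ≠ q → (p : ZMod r) = 1) ∧
      jacobiSym (q * e : ℕ) p = (-1) ^ (q / 2 * (k / 2)) * jacobiSym e k * jacobiSym s q := by
    intro s hs
    obtain ⟨p, h1, hp, h2, h3⟩ := exists_prime_crt hq.ne_zero (mul_ne_zero (by norm_num) he0)
      (hq68.mul_right (Nat.coprime_of_squarefree_mul hd)) hs hk (max B (q * e))
    have h4 : p % 4 = k % 4 := (h3.of_mul_right _).of_dvd (by norm_num)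
    have hpo : Odd p := Nat.odd_iff.2 (by omega)
    refine ⟨p, (le_max_left _ _).trans_lt h1, hp, (h3.of_mul_right _).trans k1,
      Nat.not_dvd_of_pos_of_lt (Nat.pos_of_ne_zero hd.ne_zero) ((le_max_right _ _).trans_lt h1),
      fun r hr hrd hrq => ?_, ?_⟩
    · have h5 : r ∣ e := (hr.dvd_mul.1 hrd).resolve_left fun h =>
        hrq ((Nat.prime_dvd_prime_iff_eq hr hq).1 h)
      have h6 : p ≡ 1 [MOD r] := ((h3.of_mul_left _).trans k2).of_dvd h5
      rw [(ZMod.natCast_eq_natCast_iff _ _ _).2 h6, Nat.cast_one]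
    · have h5 : jacobiSym e p = jacobiSym e k :=
        J_mod hpo (Nat.odd_iff.2 hk4) (h3.of_dvd (by
          rw [Int.natAbs_natCast]
          exact Nat.mul_dvd_mul_right (by norm_num) e))
      have h6 : jacobiSym p q = jacobiSym s q :=
        jacobiSym.mod_left' (Int.natCast_modEq_iff.2 h2)
      have h7 : (-1 : ℤ) ^ (q / 2 * (p / 2)) = (-1) ^ (q / 2 * (k / 2)) := by
        rw [mul_comm, pow_mul, mul_comm (q / 2), pow_mul, neg_one_pow_eq_pow_mod_two (p / 2),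
          neg_one_pow_eq_pow_mod_two (k / 2), show p / 2 % 2 = k / 2 % 2 by omega]
      rw [Nat.cast_mul, jacobiSym.mul_left, jacobiSym.quadratic_reciprocity hqo hpo, h5, h6, h7]
      ring
  obtain ⟨r, hr⟩ := FiniteField.exists_nonsquare (F := ZMod q) (by rwa [ZMod.ringChar_zmod_n])
  have hr0 : r ≠ 0 := by
    rintro rfl
    exact hr ⟨0, by simp⟩
  obtain ⟨p₁, a1, a2, a3, a4, a5, a6⟩ := key 1 (Nat.coprime_one_left q)
  obtain ⟨p₂, b1, b2, b3, b4, b5, b6⟩ := key r.val (ZMod.val_coe_unit_coprime (Units.mk0 r hr0))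
  have h1 : jacobiSym (r.val : ℕ) q = -1 := by
    rw [← jacobiSym.legendreSym.to_jacobiSym, legendreSym.eq_neg_one_iff]
    simpa using hr
  rw [Nat.cast_one, jacobiSym.one_left, mul_one] at a6
  rw [h1, ← a6] at b6
  rcases jacobiSym.eq_one_or_neg_one (a := (q * e : ℕ)) (b := p₁) (by
    rw [Int.gcd_natCast_natCast]
    exact ((Nat.Prime.coprime_iff_not_dvd a2).2 a4).symm) with h | h
  · exact ⟨p₂, b1, b2, b3, b4, b5, by rw [b6, h]; norm_num⟩
  · exact ⟨p₁, a1, a2, a3, a4, a5, h⟩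

/-- `n` has `r` prime factors, `u` of them `3` modulo `4`, and `v` of them inert in `ℚ(√17)` -/
structure Typ (n r u v : ℕ) : Prop where
  sqf : Squarefree n
  cop : n.Coprime 68
  m4 : n % 4 = 3 ^ u % 4
  m17 : jacobiSym n 17 = (-1) ^ v
  card : n.primeFactors.card = r
  c4 : (n.primeFactors.filter fun p => p % 4 = 3).card = u
  c17 : (n.primeFactors.filter fun p : ℕ => jacobiSym p 17 = -1).card = v

theorem exists_class (i j : ℕ) (hi : i ≤ 1) (hj : j ≤ 1) : ∃ c : ℕ, c.Coprime 68 ∧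
    ∀ p : ℕ, p.Prime → p ≡ c [MOD 68] → Typ p 1 i j := by
  have key : ∀ c : ℕ, c.Coprime 68 → c % 4 = 3 ^ i % 4 → jacobiSym c 17 = (-1) ^ j →
      ∀ p : ℕ, p.Prime → p ≡ c [MOD 68] → Typ p 1 i j := by
    intro c h1 h2 h3 p hp h
    have h4 : p % 4 = 3 ^ i % 4 := (h.of_dvd (by norm_num : 4 ∣ 68)).trans h2
    have h5 : jacobiSym p 17 = (-1) ^ j :=
      (jacobiSym.mod_left' (Int.natCast_modEq_iff.2 (h.of_dvd (by norm_num : 17 ∣ 68)))).trans h3
    refine ⟨hp.squarefree, h.gcd_eq.trans h1, h4, h5, by simp [hp.primeFactors], ?_, ?_⟩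
    · rw [hp.primeFactors, Finset.filter_singleton, h4]
      interval_cases i <;> simp
    · rw [hp.primeFactors, Finset.filter_singleton, h5]
      interval_cases j <;> simp
  interval_cases i <;> interval_cases j
  · exact ⟨1, by norm_num, key 1 (by norm_num) (by norm_num) (by norm_num)⟩
  · exact ⟨37, by norm_num, key 37 (by norm_num) (by norm_num) (by norm_num)⟩
  · exact ⟨35, by norm_num, key 35 (by norm_num) (by norm_num) (by norm_num)⟩
  · exact ⟨3, by norm_num, key 3 (by norm_num) (by norm_num) (by norm_num)⟩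

theorem Typ.mul {m n r u v r' u' v' : ℕ} (h : Typ m r u v) (h' : Typ n r' u' v')
    (hc : m.Coprime n) : Typ (m * n) (r + r') (u + u') (v + v') where
  sqf := (Nat.squarefree_mul hc).2 ⟨h.sqf, h'.sqf⟩
  cop := Nat.Coprime.mul_left h.cop h'.cop
  m4 := by rw [Nat.mul_mod, h.m4, h'.m4, pow_add, ← Nat.mul_mod]
  m17 := by rw [Nat.cast_mul, jacobiSym.mul_left, h.m17, h'.m17, pow_add]
  card := by
    rw [hc.primeFactors_mul, Finset.card_union_of_disjoint hc.disjoint_primeFactors, h.card,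
      h'.card]
  c4 := by
    rw [hc.primeFactors_mul, Finset.filter_union, Finset.card_union_of_disjoint
      (Finset.disjoint_filter_filter hc.disjoint_primeFactors), h.c4, h'.c4]
  c17 := by
    rw [hc.primeFactors_mul, Finset.filter_union, Finset.card_union_of_disjoint
      (Finset.disjoint_filter_filter hc.disjoint_primeFactors), h.c17, h'.c17]

theorem exists_typ (r : ℕ) : ∀ u ≤ r + 1, ∀ v ≤ r + 1, ∀ B : ℕ, ∃ n > B, ∃ q : ℕ, q.Prime ∧
    q ∣ n ∧ SR n q ∧ Typ n (r + 1) u v := by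
  induction r with
  | zero =>
    intro u hu v hv B
    obtain ⟨c, h1, h2⟩ := exists_class u v hu hv
    obtain ⟨p, h3, hp, h4, -⟩ := exists_prime_crt (m := 68) (n := 1) (t := 1) (by norm_num)
      one_ne_zero (by norm_num) h1 (by norm_num) B
    exact ⟨p, h3, p, hp, dvd_rfl, fun a ha hpa _ =>
      ((Nat.dvd_prime hp).1 ha).resolve_right fun h => hpa (h ▸ dvd_rfl), h2 p hp h4⟩
  | succ r ih =>
    intro u hu v hv B
    obtain ⟨n, -, q, hq, hqn, hS, hT⟩ := ih (u - 1) (by omega) (v - 1) (by omega) 0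
    obtain ⟨c, h1, h2⟩ := exists_class (u - (u - 1)) (v - (v - 1)) (by omega) (by omega)
    obtain ⟨p, h3, hp, h4, h5, h6, h7⟩ := exists_ext hT.sqf hT.cop hq hqn h1 B
    have h8 := hT.mul (h2 p hp h4) ((Nat.Prime.coprime_iff_not_dvd hp).2 h5).symm
    rw [show u - 1 + (u - (u - 1)) = u by omega, show v - 1 + (v - (v - 1)) = v by omega] at h8
    exact ⟨n * p, h3.trans_le (Nat.le_mul_of_pos_left p (Nat.pos_of_ne_zero hT.sqf.ne_zero)), q, hq,
      hqn.mul_right _, hS.mul hp h5 hqn h6 h7, h8⟩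

/-- **non-vacuity**: for all odd `u, v ≤ r` there are infinitely many squarefree `n` with `r` prime
factors, `u` of them `3` modulo `4` and `v` of them inert in `ℚ(√17)`, such that the class group of
`ℚ(√-n)` has no element of order four. -/
theorem nonvac {r u v : ℕ} (hu : u ≤ r) (hv : v ≤ r) (ou : Odd u) (ov : Odd v) :
    {n : ℕ | Squarefree n ∧ n % 4 = 3 ∧ jacobiSym n 17 = -1 ∧ n.primeFactors.card = r ∧
      (n.primeFactors.filter fun p => p % 4 = 3).card = u ∧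
      (n.primeFactors.filter fun p : ℕ => jacobiSym p 17 = -1).card = v ∧
      ∀ (K : Type) [Field K] [NumberField K] [Algebra.IsQuadraticExtension ℚ K] (θ : K),
        θ ^ 2 = -(n : K) → ∀ c : ClassGroup (𝓞 K), orderOf c ≠ 4}.Infinite := by
  apply Set.infinite_of_forall_exists_gt
  intro B
  obtain ⟨s, rfl⟩ : ∃ s, r = s + 1 := ⟨r - 1, by have := ou.pos; omega⟩
  obtain ⟨n, h1, q, hq, -, hS, hT⟩ := exists_typ s u hu v hv B
  have h2 : n % 4 = 3 := by
    obtain ⟨k, rfl⟩ := ou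
    rw [hT.m4, pow_succ, pow_mul, Nat.mul_mod, Nat.pow_mod]
    simp
  refine ⟨n, ⟨hT.sqf, h2, by rw [hT.m17, ov.neg_one_pow], hT.card, hT.c4, hT.c17, ?_⟩, h1⟩
  intro K _ _ _ θ hθ
  obtain ⟨Q⟩ := exists_QF_of_sqrt hT.sqf hθ
  exact Q.no_order_four h2 (hS.redei hT.sqf hq)

end Vale.Agent.P014K
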