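import Vale.Agent.P014K.NV
import Vale.Agent.P014B.Iface2

/-!
# P014K: the second family has infinitely many members with a given number of prime factors
-/

namespace Vale.Agent.P014K

open Vale.Agent.P014B

theorem jac_prod' {d n : ℕ} (hd : d ≠ 0) (h : ∀ p : ℕ, p.Prime → p ∣ d → jacobiSym p n = 1) :
    jacobiSym d n = 1 := by
  induction d using Nat.recOnMul with
  | zero => exact absurd rfl hd
  | one => simp
  | prime q hq => exact h q hq dvd_rfl
  | mul a b ha hb =>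
    rw [Nat.cast_mul, jacobiSym.mul_left,
      ha (left_ne_zero_of_mul hd) fun q hq e => h q hq (e.mul_right _),
      hb (right_ne_zero_of_mul hd) fun q hq e => h q hq (e.mul_left _), one_mul]

theorem kap_mul (a b r s : ℤ) : jacobiSym (a * r - b * s + 4 * (a * s + b * r)) 17 =
    jacobiSym (a + 4 * b) 17 * jacobiSym (r + 4 * s) 17 := by
  rw [← jacobiSym.mul_left]
  exact jacobiSym.mod_left' (Int.modEq_iff_dvd.2 ⟨b * s, by push_cast; ring⟩)

theorem kap_conj (r s : ℤ) :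
    jacobiSym (r + 4 * s) 17 * jacobiSym (r + 4 * -s) 17 = jacobiSym (r ^ 2 + s ^ 2) 17 := by
  rw [← kap_mul]
  congr 1
  ring

theorem kap_pm {r s : ℤ} (h : jacobiSym (r ^ 2 + s ^ 2) 17 = 1) :
    jacobiSym (r + 4 * s) 17 = 1 ∨ jacobiSym (r + 4 * s) 17 = -1 :=
  Int.isUnit_iff.1 (IsUnit.of_mul_eq_one _ ((kap_conj r s).trans h))

theorem gauss_div {p a b r s : ℤ} (hp : Prime p) (h : a ^ 2 + b ^ 2 = p) (h1 : p ∣ r ^ 2 + s ^ 2)
    (h2 : p ∣ r * a + s * b) : ∃ r' s', r = a * r' - b * s' ∧ s = a * s' + b * r' := by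
  obtain ⟨c, hc⟩ := h1
  obtain ⟨r', h2⟩ := h2
  obtain ⟨s', h3⟩ : p ∣ s * a - r * b := hp.dvd_of_dvd_pow (n := 2)
    ⟨p * (c - r' ^ 2), by linear_combination (r ^ 2 + s ^ 2) * h + p * hc -
      (r * a + s * b + p * r') * h2⟩
  exact ⟨r', s', mul_left_cancel₀ hp.ne_zero (by linear_combination a * h2 - b * h3 - r * h),
    mul_left_cancel₀ hp.ne_zero (by linear_combination a * h3 + b * h2 - s * h)⟩

theorem exists_kap (n : ℕ) : n ≠ 0 → (∀ p : ℕ, p.Prime → p ∣ n → p % 4 = 1) → ∀ r s : ℤ,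
    r ^ 2 + s ^ 2 = n → jacobiSym (r + 4 * s) 17 = -1 → ∃ p : ℕ, p.Prime ∧ p ∣ n ∧
      ∃ a b : ℤ, a ^ 2 + b ^ 2 = p ∧ jacobiSym (a + 4 * b) 17 = -1 := by
  induction n using induction_on_primes with
  | zero => exact fun h => absurd rfl h
  | one =>
    intro _ _ r s h1 h2
    exfalso
    rw [Nat.cast_one] at h1
    have : -1 ≤ r := by nlinarith
    have : r ≤ 1 := by nlinarith
    have : -1 ≤ s := by nlinarith
    have : s ≤ 1 := by nlinarith
    interval_cases r <;> interval_cases s <;> revert h1 h2 <;> norm_num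
  | prime_mul p n hp ih =>
    intro h0 h4 r s h1 h2
    have := Fact.mk hp
    have hp' := Nat.prime_iff_prime_int.1 hp
    obtain ⟨a₀, b₀, h3⟩ := Nat.Prime.sq_add_sq (p := p) (by rw [h4 p hp (dvd_mul_right _ _)]; simp)
    have h5 : (p : ℤ) ∣ r ^ 2 + s ^ 2 := ⟨n, by rw [h1, Nat.cast_mul]⟩
    obtain ⟨a, b, h6, h7⟩ : ∃ a b : ℤ, a ^ 2 + b ^ 2 = p ∧ (p : ℤ) ∣ r * a + s * b := by
      have h6 : (a₀ : ℤ) ^ 2 + b₀ ^ 2 = p := by exact_mod_cast h3
      obtain ⟨c, hc⟩ := h5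
      rcases hp'.dvd_or_dvd (a := r * a₀ + s * b₀) (b := r * a₀ + s * -b₀)
        ⟨r ^ 2 - b₀ ^ 2 * c, by linear_combination r ^ 2 * h6 - b₀ ^ 2 * hc⟩ with h | h
      exacts [⟨_, _, h6, h⟩, ⟨_, _, by rwa [neg_sq], h⟩]
    obtain ⟨r', s', rfl, rfl⟩ := gauss_div hp' h6 h5 h7
    rw [kap_mul] at h2
    rcases Int.eq_one_or_neg_one_of_mul_eq_neg_one' h2 with ⟨-, h8⟩ | ⟨h8, -⟩
    · obtain ⟨q, k1, k2, k3⟩ := ih (right_ne_zero_of_mul h0)
        (fun q hq e => h4 q hq (e.mul_left _)) r' s' (mul_left_cancel₀ hp'.ne_zero (by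
          push_cast at h1
          linear_combination h1 - (r' ^ 2 + s' ^ 2) * h6)) h8
      exact ⟨q, k1, k2.mul_left _, k3⟩
    · exact ⟨p, hp, dvd_mul_right _ _, a, b, h6, h8⟩

theorem fam2_prime (B : ℕ) : ∃ p : ℕ, B < p ∧ p.Prime ∧ Fam2 p := by
  obtain ⟨a, a0, a1, a2⟩ : ∃ a : ℕ, a.Coprime 42 ∧ 17 ∣ a ∧
      ∀ l : ℕ, l.Prime → l ≤ B → ¬ l ∣ 42 → l ∣ a := by
    refine ⟨∏ l ∈ (Finset.range (B + 18)).filter fun l => l.Prime ∧ ¬ l ∣ 42, l,
      Nat.Coprime.prod_left fun l hl => ?_, Finset.dvd_prod_of_mem _ ?_,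
      fun l h1 h2 h3 => Finset.dvd_prod_of_mem _ ?_⟩
    · have := (Finset.mem_filter.1 hl).2
      exact (Nat.Prime.coprime_iff_not_dvd this.1).2 this.2
    · exact Finset.mem_filter.2 ⟨Finset.mem_range.2 (by omega), by norm_num, by norm_num⟩
    · exact Finset.mem_filter.2 ⟨Finset.mem_range.2 (by omega), h1, h3⟩
  obtain ⟨j, hj⟩ : Odd (a : ℤ) := (Int.odd_coe_nat _).2
    (Nat.coprime_two_right.1 (a0.coprime_dvd_right (by norm_num)))
  obtain ⟨w, hw⟩ := Int.even_mul_succ_self j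
  obtain ⟨n, hn⟩ : ∃ n : ℕ, (w + j - 2) ^ 2 + (w - j - 3) ^ 2 = n :=
    ⟨_, (Int.toNat_of_nonneg (by positivity)).symm⟩
  have e1 : 32 * (n : ℤ) = (a ^ 2 - 21) ^ 2 + (4 * a) ^ 2 := by
    have : (a : ℤ) ^ 2 = 8 * w + 1 := by rw [hj]; linear_combination 4 * hw
    rw [← hn, mul_pow, this]
    linear_combination 64 * hw
  have key : ∀ p : ℕ, p.Prime → p ∣ n → p % 4 = 1 ∧ ¬ p ∣ a := by
    intro p hp hpn
    have hF := Fact.mk hp
    have h1 : (p : ℤ) ∣ 32 * n := (Int.natCast_dvd_natCast.2 hpn).mul_left _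
    have hp' := Nat.prime_iff_prime_int.1 hp
    have h2 : ¬ p ∣ a := fun h => by
      have h3 := Int.natCast_dvd_natCast.2 h
      have h4 : (p : ℤ) ∣ 21 ^ 2 := by
        have := dvd_sub h1 (h3.mul_right (a * (a ^ 2 - 26)))
        rwa [e1, show ((a : ℤ) ^ 2 - 21) ^ 2 + (4 * a) ^ 2 - a * (a * (a ^ 2 - 26)) = 21 ^ 2 by ring]
          at this
      have h5 : p ∣ 42 := Dvd.dvd.trans (Int.natCast_dvd_natCast.1 (hp'.dvd_of_dvd_pow h4))
        (by norm_num)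
      exact hp.one_lt.ne' (Nat.eq_one_of_dvd_coprimes a0 h h5)
    have h3 : p ≠ 2 := by
      rintro rfl
      obtain ⟨c, hc⟩ := Int.natCast_dvd_natCast.2 hpn
      have : (w + j - 2 + (w - j - 3)) ^ 2 = 2 * (c + (w + j - 2) * (w - j - 3)) := by
        push_cast at hc
        linear_combination hn + hc
      have := Int.prime_two.dvd_of_dvd_pow ⟨_, this⟩
      omega
    refine ⟨?_, h2⟩
    have h4 : p % 4 ≠ 3 := by
      refine ZMod.mod_four_ne_three_of_sq_eq_neg_sq' (x := ((a ^ 2 - 21 : ℤ) : ZMod p))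
        (y := ((4 * a : ℤ) : ZMod p)) (fun h => ?_) ?_
      · rcases hp'.dvd_or_dvd ((ZMod.intCast_zmod_eq_zero_iff_dvd _ _).1 h) with h | h
        · exact h3 ((Nat.prime_dvd_prime_iff_eq hp Nat.prime_two).1
            (hp.dvd_of_dvd_pow (n := 2) (Int.natCast_dvd_natCast.1 h)))
        · exact h2 (Int.natCast_dvd_natCast.1 h)
      · have := (ZMod.intCast_zmod_eq_zero_iff_dvd _ _).2 (e1 ▸ h1)
        push_cast at this ⊢
        linear_combination this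
    have := hp.eq_two_or_odd
    omega
  have n0 : n ≠ 0 := by
    rintro rfl
    have : 0 < a := Nat.pos_of_ne_zero (by rintro rfl; norm_num at a0)
    have : (0 : ℤ) < (4 * a) ^ 2 := by positivity
    rw [Nat.cast_zero] at e1
    linarith [sq_nonneg ((a : ℤ) ^ 2 - 21)]
  obtain ⟨p, hp, hpn, hk⟩ := exists_kap n n0 (fun p hp e => (key p hp e).1) _ _ hn (by
    obtain ⟨c, hc⟩ := Int.natCast_dvd_natCast.2 a1
    have h1 : (a : ℤ) ^ 2 = 8 * w + 1 := by rw [hj]; linear_combination 4 * hw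
    have h2 : w % 17 = 2 := by
      have : 8 * w + 1 = 17 * (17 * c ^ 2) := by rw [← h1, hc]; push_cast; ring
      omega
    rw [jacobiSym.mod_left' (a₂ := 6) (by push_cast at hc ⊢; omega)]
    norm_num)
  obtain ⟨k1, k2⟩ := key p hp hpn
  have hF := Fact.mk hp
  refine ⟨p, not_le.1 fun h => k2 (a2 p hp h fun e => ?_), hp, hp.squarefree, fun q hq e => ?_,
    fun d₁ d₂ h _ _ => ?_, hk⟩
  · have := Nat.le_of_dvd (by norm_num) e
    interval_cases p <;> simp_all (config := { decide := true })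
  · obtain rfl := (Nat.prime_dvd_prime_iff_eq hq hp).1 e
    refine ⟨k1, ?_⟩
    have h17 : ¬ (q : ℤ) ∣ 17 := fun e => k2 ((Int.natCast_dvd_natCast.1 e).trans a1)
    rw [jacobiSym.quadratic_reciprocity_one_mod_four k1 (by decide),
      ← jacobiSym.legendreSym.to_jacobiSym]
    have h1 : (q : ℤ) ∣ 32 * n := (Int.natCast_dvd_natCast.2 hpn).mul_left _
    refine legendreSym.eq_one_of_sq_sub_mul_sq_eq_zero (x := ((a ^ 2 + 21 : ℤ) : ZMod q))
      (y := ((2 * a : ℤ) : ZMod q)) (fun h => h17 ((ZMod.intCast_zmod_eq_zero_iff_dvd _ _).1 h))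
      (fun h => ?_) ?_
    · rcases (Nat.prime_iff_prime_int.1 hq).dvd_or_dvd
        ((ZMod.intCast_zmod_eq_zero_iff_dvd _ _).1 h) with h | h
      · have := Nat.le_of_dvd two_pos (Int.natCast_dvd_natCast.1 h)
        have := hq.two_le
        omega
      · exact k2 (Int.natCast_dvd_natCast.1 h)
    · have := (ZMod.intCast_zmod_eq_zero_iff_dvd _ _).2 (e1 ▸ h1)
      push_cast at this ⊢
      linear_combination this
  · exact (Nat.prime_mul_iff.1 (h ▸ hp)).symm.imp (·.2) (·.2)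

/-- a set of primes which are residues modulo each other and non-residues modulo `13` and `53` -/
def Star (e : ℕ) : Prop := Squarefree e ∧ (∃ r s : ℤ, r ^ 2 + s ^ 2 = e) ∧
  ∀ p : ℕ, p.Prime → p ∣ e → p ≡ 1 [MOD 68] ∧ p ≡ 2 [MOD 689] ∧
    ∀ l : ℕ, l.Prime → l ∣ e → l ≠ p → jacobiSym l p = 1

theorem Star.cop {e : ℕ} (h : Star e) : e.Coprime 689 :=
  Nat.coprime_of_dvd fun p hp h1 h2 => hp.one_lt.ne' (Nat.Coprime.eq_one_of_dvd
    (((h.2.2 p hp h1).2.1.gcd_eq).trans (by norm_num)) h2)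

theorem Star.mul {e : ℕ} (h : Star e) (B : ℕ) : ∃ p > B, p.Prime ∧ ¬ p ∣ e ∧ Star (e * p) := by
  have e0 := h.1.ne_zero
  obtain ⟨p, h1, hp, h2, h3⟩ := exists_prime_crt (m := 68 * e) (n := 689) (s := 1) (t := 2)
    (by positivity) (by norm_num) (Nat.Coprime.mul_left (by norm_num) h.cop) (by simp)
    (by norm_num) (max B e)
  have h4 : ¬ p ∣ e := Nat.not_dvd_of_pos_of_lt (by positivity) ((le_max_right _ _).trans_lt h1)
  have h5 : p ≡ 1 [MOD 68] := h2.of_mul_right _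
  have h6 : p % 4 = 1 := h5.of_dvd (by norm_num : 4 ∣ 68)
  have h7 (l : ℕ) (hl : l ∣ e) : jacobiSym p l = 1 := by
    rw [jacobiSym.mod_left' (Int.natCast_modEq_iff.2 ((h2.of_mul_left _).of_dvd hl))]
    simp
  have h8 {l : ℕ} (hl : l.Prime) (h : l ∣ e * p) : l ∣ e ∨ l = p :=
    (hl.dvd_mul.1 h).imp_right (Nat.prime_dvd_prime_iff_eq hl hp).1
  refine ⟨p, (le_max_left _ _).trans_lt h1, hp, h4, (Nat.squarefree_mul
    ((Nat.Prime.coprime_iff_not_dvd hp).2 h4).symm).2 ⟨h.1, hp.squarefree⟩, ?_, fun q hq e1 => ?_⟩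
  · obtain ⟨r, s, hr⟩ := h.2.1
    have := Fact.mk hp
    obtain ⟨a, b, h9⟩ := Nat.Prime.sq_add_sq (p := p) (by omega)
    exact ⟨a * r - b * s, a * s + b * r, by rw [Nat.cast_mul, ← hr, ← h9]; push_cast; ring⟩
  rcases h8 hq e1 with e4 | rfl
  · refine ⟨(h.2.2 q hq e4).1, (h.2.2 q hq e4).2.1, fun l hl e2 hne => ?_⟩
    rcases h8 hl e2 with e2 | rfl
    exacts [(h.2.2 q hq e4).2.2 l hl e2 hne, h7 q e4]
  · refine ⟨h5, h3, fun l hl e2 hne => ?_⟩
    have e3 := (h8 hl e2).resolve_right hne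
    have : l % 2 = 1 := (h.2.2 l hl e3).1.of_dvd (by norm_num : 2 ∣ 68)
    rw [← jacobiSym.quadratic_reciprocity_one_mod_four h6 (Nat.odd_iff.2 this), h7 l e3]

theorem exists_star (t : ℕ) : ∃ e, Star e ∧ e.primeFactors.card = t := by
  induction t with
  | zero => exact ⟨1, ⟨squarefree_one, ⟨1, 0, by simp⟩, fun p hp h =>
      absurd (Nat.dvd_one.1 h) hp.one_lt.ne'⟩, by simp⟩
  | succ t ih =>
    obtain ⟨e, h1, h2⟩ := ih
    obtain ⟨p, -, hp, h3, h4⟩ := h1.mul 0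
    have hc := ((Nat.Prime.coprime_iff_not_dvd hp).2 h3).symm
    exact ⟨e * p, h4, by rw [hc.primeFactors_mul,
      Finset.card_union_of_disjoint hc.disjoint_primeFactors, h2, hp.primeFactors,
      Finset.card_singleton]⟩

theorem Star.fam {e q : ℕ} (h : Star e) (hq : q.Prime) (h689 : q ∣ 689) (h4 : q % 4 = 1)
    (h17 : jacobiSym q 17 = 1) (h2 : jacobiSym 2 q = -1) {r s : ℤ} (hr : r ^ 2 + s ^ 2 = (q * e : ℕ))
    (hk : jacobiSym (r + 4 * s) 17 = -1) : Fam2 (q * e) := by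
  have hc : q.Coprime e := (h.cop.coprime_dvd_right h689).symm
  have hs : Squarefree (q * e) := (Nat.squarefree_mul hc).2 ⟨hq.squarefree, h.1⟩
  have h8 {l : ℕ} (hl : l.Prime) (h : l ∣ q * e) : l = q ∨ l ∣ e :=
    (hl.dvd_mul.1 h).imp_left (Nat.prime_dvd_prime_iff_eq hl hq).1
  have key : ∀ d₁ d₂ : ℕ, d₁ * d₂ = q * e → q ∣ d₁ →
      (∀ p : ℕ, p.Prime → p ∣ d₂ → jacobiSym d₁ p = 1) → d₂ = 1 := by
    rintro _ d₂ e1 ⟨d, rfl⟩ h1
    have e2 : d * d₂ = e := Nat.eq_of_mul_eq_mul_left hq.pos (by rw [← e1, mul_assoc])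
    by_contra hne
    obtain ⟨p, hp, hpd⟩ := Nat.exists_prime_and_dvd hne
    have h3 := h1 p hp hpd
    obtain ⟨k1, k2, k3⟩ := h.2.2 p hp (e2 ▸ hpd.mul_left _)
    have k4 : p % 2 = 1 := k1.of_dvd (by norm_num : 2 ∣ 68)
    rw [Nat.cast_mul, jacobiSym.mul_left,
      jacobiSym.quadratic_reciprocity_one_mod_four h4 (Nat.odd_iff.2 k4),
      jacobiSym.mod_left' (Int.natCast_modEq_iff.2 (k2.of_dvd h689)), Nat.cast_ofNat, h2,
      jac_prod' (left_ne_zero_of_mul (e2 ▸ h.1.ne_zero)) fun l hl e3 =>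
        k3 l hl (e2 ▸ e3.mul_right _) (by
          rintro rfl
          exact hl.one_lt.ne' (Nat.isUnit_iff.1 (h.1 l (e2 ▸ Nat.mul_dvd_mul e3 hpd))))] at h3
    norm_num at h3
  refine ⟨hs, fun p hp e1 => ?_, fun d₁ d₂ e1 h1 h3 => ?_, r, s, hr, hk⟩
  · rcases h8 hp e1 with rfl | e1
    · exact ⟨h4, h17⟩
    · have k1 := (h.2.2 p hp e1).1
      refine ⟨k1.of_dvd (by norm_num : 4 ∣ 68), ?_⟩
      rw [jacobiSym.mod_left' (Int.natCast_modEq_iff.2 (k1.of_dvd (by norm_num : 17 ∣ 68)))]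
      simp
  · rcases hq.dvd_mul.1 (e1 ▸ dvd_mul_right q e) with h5 | h5
    · exact .inr (key d₁ d₂ e1 h5 h1)
    · exact .inl (key d₂ d₁ (by rwa [mul_comm]) h5 h3)

theorem nv2 : NV2Stmt := by
  intro t B ht
  rcases (show t = 1 ∨ ∃ u, t = u + 2 from (em (t = 1)).imp_right fun _ => ⟨t - 2, by omega⟩)
    with rfl | ⟨u, rfl⟩
  · obtain ⟨p, h1, hp, h2⟩ := fam2_prime B
    exact ⟨p, h1, h2, by rw [hp.primeFactors, Finset.card_singleton]⟩
  obtain ⟨e₀, h1, h2⟩ := exists_star u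
  obtain ⟨p, h3, hp, h4, h5⟩ := h1.mul B
  have hc := ((Nat.Prime.coprime_iff_not_dvd hp).2 h4).symm
  have h6 : (e₀ * p).primeFactors.card = u + 1 := by
    rw [hc.primeFactors_mul, Finset.card_union_of_disjoint hc.disjoint_primeFactors, h2,
      hp.primeFactors, Finset.card_singleton]
  have h7 : B < e₀ * p := h3.trans_le (Nat.le_mul_of_pos_left p (Nat.pos_of_ne_zero h1.1.ne_zero))
  generalize e₀ * p = e at h5 h6 h7
  have key : ∀ q : ℕ, q.Prime → q ∣ 689 → Fam2 (q * e) →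
      ∃ d, B < d ∧ Fam2 d ∧ d.primeFactors.card = u + 2 := fun q hq h689 hF => by
    have hc : q.Coprime e := (h5.cop.coprime_dvd_right h689).symm
    exact ⟨q * e, h7.trans_le (Nat.le_mul_of_pos_left e hq.pos), hF, by
      rw [hc.primeFactors_mul, Finset.card_union_of_disjoint hc.disjoint_primeFactors, h6,
        hq.primeFactors, Finset.card_singleton, add_comm]⟩
  obtain ⟨r, s, hr⟩ := h5.2.1
  rcases kap_pm (r := r) (s := s) (hr ▸ jac_prod' h5.1.ne_zero fun l hl e1 => by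
    rw [jacobiSym.mod_left' (Int.natCast_modEq_iff.2
      ((h5.2.2 l hl e1).1.of_dvd (by norm_num : 17 ∣ 68)))]
    simp) with h | h
  · exact key 13 (by norm_num) (by norm_num) (h5.fam (by norm_num) (by norm_num) (by norm_num)
      (by norm_num) (by norm_num) (r := 3 * r - 2 * s) (s := 3 * s + 2 * r)
      (by rw [Nat.cast_mul, ← hr]; push_cast; ring) (by rw [kap_mul, h]; norm_num))
  · exact key 53 (by norm_num) (by norm_num) (h5.fam (by norm_num) (by norm_num) (by norm_num)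
      (by norm_num) (by norm_num) (r := 7 * r - 2 * s) (s := 7 * s + 2 * r)
      (by rw [Nat.cast_mul, ← hr]; push_cast; ring) (by rw [kap_mul, h]; norm_num))

end Vale.Agent.P014K
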