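import Vale.Agent.P014K.Main2
import Vale.Agent.P014K.NV
import Vale.Agent.P014K.NV2
import Vale.Agent.P014A.GW
import Vale.Agent.P014D.Hedge
import Vale.Agent.P014D.Ind

/-!
# P014K: the two families
-/

open NumberField

namespace Vale.Agent.P014K

open Vale.Agent.P014 Vale.Agent.P014B Vale.Agent.P017.H185 Vale.Agent.P014G

/-- negative twists of `17a2` -/
theorem fam_neg (K : Type) [Field K] [NumberField K] [Algebra.IsQuadraticExtension ℚ K] (n : ℕ)
    (θ : K) (hθ : θ ^ 2 = -(n : K)) (hn : Squarefree n) (k : ℤ) (hk : 4 * k + 1 = -(n : ℤ))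
    (h17 : jacobiSym n 17 = -1)
    (hF : (n.primeFactors.filter fun p => p % 4 = 3).card = 1 ∨
      (n.primeFactors.filter fun p : ℕ => jacobiSym p 17 = -1).card = 1)
    (hcl : ∀ c : ClassGroup (𝓞 K), orderOf c ≠ 4) :
    GlobalMinimal (tw k) ∧ Finite (tw k).toAffine.Point ∧ Nat.card (shaPrimary (tw k) 2) = 1 ∧
      (∃ L, IsHasseWeil (tw k) L) ∧
      ∀ L, IsHasseWeil (tw k) L → L 1 ≠ 0 ∧ PPartRankZero (tw k) L 2 := by
  obtain ⟨q⟩ := exists_QF_of_sqrt hn hθ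
  exact main (Vale.Agent.P014D.ind Vale.Agent.P014D.brandt Vale.Agent.P014A.grossStmt lstmt) K n q k
    hk h17 ((Vale.Agent.P014F.fam_iff n).2 hF) hcl

/-- positive twists of `X₀(17)` -/
theorem fam_pos (hS : Sel2Stmt) (k : ℤ) (d : ℕ) (hk : 4 * k + 1 = d) (hF : Fam2 d) :
    GlobalMinimal (x17 k) ∧ Finite (x17 k).toAffine.Point ∧ Nat.card (shaPrimary (x17 k) 2) = 1 ∧
      (∃ L, IsHasseWeil (x17 k) L) ∧
      ∀ L, IsHasseWeil (x17 k) L → L 1 ≠ 0 ∧ PPartRankZero (x17 k) L 2 :=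
  main2 (Vale.Agent.P014D.ind2 Vale.Agent.P014A.grossStmt lstmt) hS k d hk hF

end Vale.Agent.P014K
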