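import Vale.Agent.P014A.Iface
import Vale.Agent.P004N.H974.Fund

/-!
# P014K: integrals over `Γ₀(17) \ ℍ` are invariant under the Fricke involution
-/

open MeasureTheory Set CongruenceSubgroup
open UpperHalfPlane hiding I
open scoped Real MatrixGroups Modular ENNReal

namespace Vale.Agent.P014K

open Vale.Agent.P014.H687 Vale.Agent.P014A Vale.Agent.P004.H26.H86

theorem sl_coe (g : SL(2, ℤ)) (z : ℍ) :
    ((g • z : ℍ) : ℂ) = ((g 0 0 : ℂ) * z + g 0 1) / ((g 1 0 : ℂ) * z + g 1 1) := by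
  rw [UpperHalfPlane.coe_specialLinearGroup_apply]
  simp

theorem sl_mp (g : SL(2, ℤ)) : MeasurePreserving (fun z : ℍ => g • z) volume volume :=
  measurePreserving_smul (g : GL (Fin 2) ℝ) volume

theorem STST (j k : ℤ) : ((ModularGroup.S * ModularGroup.T ^ j *
    (ModularGroup.S * ModularGroup.T ^ k)⁻¹ : SL(2, ℤ)) 1 0 : ℤ) = k - j := by
  simp [Matrix.mul_apply, Fin.sum_univ_two, ModularGroup.coe_T_zpow, ModularGroup.coe_S,
    Matrix.adjugate_fin_two]
  ring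

theorem ST_not (j : ℤ) : ModularGroup.S * ModularGroup.T ^ j ∉ Gamma0 17 := by
  rw [Gamma0_mem]
  simp [Matrix.mul_apply, Fin.sum_univ_two, ModularGroup.coe_T_zpow, ModularGroup.coe_S]

theorem cos_bij : Function.Bijective
    fun x : Option (Fin 17) × Gamma0 17 => (x.2 : SL(2, ℤ)) * cos17 x.1 := by
  constructor
  · rintro ⟨i, a⟩ ⟨j, b⟩ h
    simp only at h
    have h1 : cos17 i * (cos17 j)⁻¹ ∈ Gamma0 17 := by
      have : cos17 i * (cos17 j)⁻¹ = (a : SL(2, ℤ))⁻¹ * b := by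
        rw [mul_inv_eq_iff_eq_mul, mul_assoc, ← h, inv_mul_cancel_left]
      rw [this]
      exact mul_mem (inv_mem a.2) b.2
    have h2 : i = j := by
      rcases i with _ | i <;> rcases j with _ | j
      · rfl
      · exact absurd (by simpa [cos17] using inv_mem h1) (ST_not (j : ℕ))
      · exact absurd (by simpa [cos17] using h1) (ST_not (i : ℕ))
      · rw [cos17, cos17, Gamma0_mem, STST, ZMod.intCast_zmod_eq_zero_iff_dvd] at h1
        congr 1
        apply Fin.ext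
        have := i.2
        have := j.2
        omega
    subst h2
    exact Prod.ext rfl (Subtype.ext (mul_right_cancel h))
  · intro g
    rcases cases17 g with h | ⟨g0, h0, j, rfl⟩
    · exact ⟨(none, ⟨g, h⟩), mul_one g⟩
    · have h1 : (j % 17).toNat < 17 := by omega
      have h2 : ModularGroup.S * ModularGroup.T ^ j * (cos17 (some ⟨_, h1⟩))⁻¹ ∈ Gamma0 17 := by
        rw [cos17, Gamma0_mem, STST, ZMod.intCast_zmod_eq_zero_iff_dvd]
        simp only
        omega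
      exact ⟨(some ⟨_, h1⟩, ⟨_, mul_mem h0 h2⟩), by simp only [mul_assoc, inv_mul_cancel, mul_one]⟩

theorem tsum_cos (F : SL(2, ℤ) → ℝ≥0∞) :
    ∑' g, F g = ∑ i : Option (Fin 17), ∑' δ : Gamma0 17, F (δ * cos17 i) := by
  rw [← (Equiv.ofBijective _ cos_bij).tsum_eq, ENNReal.tsum_prod', tsum_fintype]
  rfl

theorem J_eq {ρ φ : ℍ → ℝ≥0∞} (mρ : Measurable ρ) (mφ : Measurable φ)
    (hρ : ∀ᵐ z : ℍ, ∑' δ : Gamma0 17, ρ ((δ : SL(2, ℤ)) • z) = 2)
    (hφ : ∀ δ ∈ Gamma0 17, ∀ z, φ (δ • z) = φ z) :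
    ∫⁻ z, ρ z * φ z = ∑ i : Option (Fin 17), ∫⁻ z in (𝒟 : Set ℍ), φ (cos17 i • z) := by
  have := sl_countable
  have h1 := unfold (h := fun z => ρ z * φ z) (mρ.mul mφ)
  rw [tsum_cos] at h1
  refine (ENNReal.mul_right_inj two_ne_zero ENNReal.ofNat_ne_top).1 ?_
  rw [← h1, Finset.mul_sum]
  refine Finset.sum_congr rfl fun i _ => ?_
  rw [← lintegral_tsum (f := fun (δ : Gamma0 17) z => ρ (((δ : SL(2, ℤ)) * cos17 i) • z) *
      φ (((δ : SL(2, ℤ)) * cos17 i) • z))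
      fun δ => ((mρ.mul mφ).comp (sl_mp _).measurable).aemeasurable,
    ← lintegral_const_mul (f := fun z => φ (cos17 i • z)) _ (mφ.comp (sl_mp _).measurable)]
  refine lintegral_congr_ae (ae_restrict_of_ae ?_)
  filter_upwards [(sl_mp (cos17 i)).quasiMeasurePreserving.ae hρ] with z hz
  simp only [mul_smul]
  rw [← hz, ← ENNReal.tsum_mul_right]
  exact tsum_congr fun δ => by rw [hφ _ δ.2]

/-- the weight of a fundamental domain -/
noncomputable def rho (z : ℍ) : ℝ≥0∞ :=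
  ∑ i : Option (Fin 17), (𝒟 : Set ℍ).indicator (fun _ => (1 : ℝ≥0∞)) ((cos17 i)⁻¹ • z)

theorem rho_meas : Measurable rho :=
  Finset.measurable_sum _ fun _ _ =>
    (measurable_const.indicator ModularGroup.isClosed_fd.measurableSet).comp (sl_mp _).measurable

theorem rho_sum : ∀ᵐ z : ℍ, ∑' δ : Gamma0 17, rho ((δ : SL(2, ℤ)) • z) = 2 := by
  filter_upwards [two_of] with z hz
  rw [← hz, ← (Equiv.inv SL(2, ℤ)).tsum_eq, tsum_cos, ← (Equiv.inv (Gamma0 17)).tsum_eq]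
  unfold rho
  rw [Summable.tsum_finsetSum fun _ _ => ENNReal.summable]
  refine Finset.sum_congr rfl fun i _ => tsum_congr fun δ => ?_
  simp [mul_smul]

/-- the Fricke matrix -/
noncomputable def Wg : GL (Fin 2) ℝ :=
  Matrix.GeneralLinearGroup.mkOfDetNeZero !![0, -1; 17, 0] (by simp [Matrix.det_fin_two])

theorem Wg_coe (z : ℍ) : ((Wg • z : ℍ) : ℂ) = -1 / (17 * z) := by
  rw [coe_smul_of_det_pos (by simp [Wg, Matrix.det_fin_two])]
  simp [Wg, num, denom]

theorem dvd_of_mem (δ : Gamma0 17) : (17 : ℤ) ∣ (δ : SL(2, ℤ)) 1 0 := by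
  have h := δ.2
  rw [Gamma0_mem, ZMod.intCast_zmod_eq_zero_iff_dvd] at h
  exact_mod_cast h

/-- conjugation by the Fricke matrix -/
def cj (δ : Gamma0 17) : Gamma0 17 :=
  ⟨⟨!![(δ : SL(2, ℤ)) 1 1, -((δ : SL(2, ℤ)) 1 0 / 17); -(17 * (δ : SL(2, ℤ)) 0 1),
      (δ : SL(2, ℤ)) 0 0], by
      have h1 := (δ : SL(2, ℤ)).det_coe
      have h2 := Int.mul_ediv_cancel' (dvd_of_mem δ)
      rw [Matrix.det_fin_two] at h1
      rw [Matrix.det_fin_two_of]
      linear_combination h1 - (δ : SL(2, ℤ)) 0 1 * h2⟩,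
    Gamma0_mem.2 ((ZMod.intCast_zmod_eq_zero_iff_dvd _ _).2 (dvd_neg.2 (Dvd.intro _ rfl)))⟩

theorem cj_cj : Function.Involutive cj := by
  intro δ
  have h2 := Int.mul_ediv_cancel' (dvd_of_mem δ)
  apply Subtype.ext
  ext i j
  fin_cases i <;> fin_cases j <;> simp [cj, h2]
  omega

theorem cj_smul (δ : Gamma0 17) (z : ℍ) :
    Wg • ((δ : SL(2, ℤ)) • z) = (cj δ : SL(2, ℤ)) • (Wg • z) := by
  apply UpperHalfPlane.ext
  have h1 := denom_ne_zero (δ : SL(2, ℤ)) z
  have h2 := denom_ne_zero (cj δ : SL(2, ℤ)) (Wg • z)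
  have h3 := ((δ : SL(2, ℤ)) • z).ne_zero
  rw [ModularGroup.denom_apply] at h1 h2
  rw [sl_coe] at h3
  rw [Wg_coe, sl_coe, sl_coe, eq_div_iff h2, Wg_coe]
  obtain ⟨c, hc⟩ := dvd_of_mem δ
  have h4 := z.ne_zero
  have h5 := (div_ne_zero_iff.1 h3).1
  simp only [cj, hc, Matrix.SpecialLinearGroup.coe_mk, Matrix.of_apply, Matrix.cons_val',
    Matrix.cons_val_zero, Matrix.cons_val_one, Matrix.cons_val_fin_one,
    Int.mul_ediv_cancel_left c (by norm_num : (17 : ℤ) ≠ 0)] at h1 ⊢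
  push_cast at h1 ⊢
  field_simp
  ring

theorem J_W {φ : ℍ → ℝ≥0∞} (mφ : Measurable φ) (hφ : ∀ δ ∈ Gamma0 17, ∀ z, φ (δ • z) = φ z) :
    ∑ i : Option (Fin 17), ∫⁻ z in (𝒟 : Set ℍ), φ (Wg • (cos17 i • z)) =
      ∑ i : Option (Fin 17), ∫⁻ z in (𝒟 : Set ℍ), φ (cos17 i • z) := by
  have mp : MeasurePreserving (fun z : ℍ => Wg • z) volume volume := measurePreserving_smul Wg volume
  rw [← J_eq rho_meas mφ rho_sum hφ, ← J_eq (ρ := fun z => rho (Wg • z)) (φ := fun z => φ (Wg • z))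
    (rho_meas.comp mp.measurable) (mφ.comp mp.measurable)]
  · exact mp.lintegral_comp (rho_meas.mul mφ)
  · filter_upwards [mp.quasiMeasurePreserving.ae rho_sum] with z hz
    rw [← hz, ← cj_cj.toPerm.tsum_eq]
    refine tsum_congr fun δ => ?_
    rw [cj_smul, Function.Involutive.coe_toPerm, cj_cj]
  · intro δ hδ z
    rw [cj_smul ⟨δ, hδ⟩, hφ _ (cj _).2]

/-- invariance of the integral under the Fricke involution -/
theorem int_W {A : ℍ → ℂ} (mA : Measurable A) (hA : ∀ δ ∈ Gamma0 17, ∀ z, A (δ • z) = A z)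
    (i1 : ∀ i, IntegrableOn (fun z => A (cos17 i • z)) 𝒟)
    (i2 : ∀ i, IntegrableOn (fun z => A (Wg • (cos17 i • z))) 𝒟) :
    ∫ z in (𝒟 : Set ℍ), ∑ i : Option (Fin 17), A (Wg • (cos17 i • z)) =
      ∫ z in (𝒟 : Set ℍ), ∑ i : Option (Fin 17), A (cos17 i • z) := by
  have mW : Measurable fun z : ℍ => Wg • z := (measurePreserving_smul Wg volume).measurable
  have m1 : ∀ i, Measurable fun z => A (cos17 i • z) := fun i => mA.comp (sl_mp _).measurable
  have m2 : ∀ i, Measurable fun z => A (Wg • (cos17 i • z)) := fun i =>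
    mA.comp (mW.comp (sl_mp _).measurable)
  have key : ∀ {B : Option (Fin 17) → ℍ → ℂ}, (∀ i, Measurable (B i)) →
      (∀ i, IntegrableOn (B i) 𝒟) → ∫ z in (𝒟 : Set ℍ), ∑ i, B i z =
        ∫ w, w ∂(∑ i, (volume.restrict (𝒟 : Set ℍ)).map (B i)) := by
    intro B m i
    rw [integral_finsetSum _ fun j _ => i j, integral_finsetSum_measure (f := fun w => w) fun j _ =>
      (integrable_map_measure aestronglyMeasurable_id (m j).aemeasurable).2 (i j)]
    exact Finset.sum_congr rfl fun j _ =>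
      (integral_map (m j).aemeasurable aestronglyMeasurable_id).symm
  rw [key m1 i1, key m2 i2]
  congr 1
  ext s hs
  simp only [Measure.coe_finsetSum, Finset.sum_apply, Measure.map_apply (m1 _) hs,
    Measure.map_apply (m2 _) hs]
  have h := J_W (φ := fun z => s.indicator 1 (A z)) ((measurable_one.indicator hs).comp mA)
    (fun δ hδ z => by simp only [hA δ hδ])
  have e : ∀ {B : ℍ → ℂ}, Measurable B → ∫⁻ z in (𝒟 : Set ℍ), s.indicator 1 (B z) =
      (volume.restrict (𝒟 : Set ℍ)) (B ⁻¹' s) := fun m =>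
    lintegral_indicator_one (m hs)
  simpa only [e (m1 _), e (m2 _)] using h

end Vale.Agent.P014K
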