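import Vale.Agent.P004H.H181.Mult

/-!
# P014K: the product formula for Hecke eigenvalues
-/

namespace Vale.Agent.P014K

open Vale.Agent.P004H.H181 Finset

/-- the identity away from `17` -/
def ps (d : ℕ) : ℤ := if 17 ∣ d then 0 else d

theorem ps_mul (x y : ℕ) : ps (x * y) = ps x * ps y := by
  unfold ps
  have h : 17 ∣ x * y ↔ 17 ∣ x ∨ 17 ∣ y := (by norm_num : Nat.Prime 17).dvd_mul
  by_cases h1 : 17 ∣ x <;> by_cases h2 : 17 ∣ y <;> simp [h, h1, h2]

variable {a : ℕ → ℤ} (H : Hk 17 a)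

/-- the right hand side of the product formula -/
def SS (a : ℕ → ℤ) (m n : ℕ) : ℤ :=
  ∑ d ∈ n.divisors, if d ∣ m then ps d * a (m / d * (n / d)) else 0

include H

theorem hecke_p {p : ℕ} (hp : p.Prime) (n : ℕ) :
    a (p * n) + (if p ∣ n then ps p * a (n / p) else 0) = a p * a n := by
  by_cases h : p ∣ 17
  · have h1 : 17 ∣ p := ((Nat.prime_dvd_prime_iff_eq hp (by norm_num)).1 h).symm ▸ dvd_rfl
    simp [ps, h1, H.U p hp h n]
  · have h1 : ¬ 17 ∣ p := fun h2 =>
      h (((Nat.prime_dvd_prime_iff_eq (by norm_num) hp).1 h2) ▸ dvd_rfl)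
    simp only [ps, if_neg h1]
    exact H.T p hp h n

theorem SS_rec {p : ℕ} (hp : p.Prime) (m : ℕ) {n : ℕ} (hn : n ≠ 0) :
    SS a (p * m) n + (if p ∣ m then ps p * SS a (m / p) n else 0) = a p * SS a m n := by
  have hp0 := hp.pos
  have h1 : ∑ d ∈ n.divisors with (d ∣ p * m ∧ ¬ d ∣ m), ps d * a (p * m / d * (n / d)) =
      ∑ e ∈ n.divisors with (e ∣ m ∧ p * e ∣ n ∧ ¬ p * e ∣ m),
        ps p * (ps e * a (m / e * (n / e) / p)) := by
    symm
    refine sum_bij (fun e _ => p * e) ?_ ?_ ?_ ?_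
    · intro e he
      rw [mem_filter, Nat.mem_divisors] at he ⊢
      exact ⟨⟨he.2.2.1, hn⟩, Nat.mul_dvd_mul_left p he.2.1, he.2.2.2⟩
    · intro e _ e' _ h
      exact Nat.eq_of_mul_eq_mul_left hp0 h
    · intro d hd
      rw [mem_filter, Nat.mem_divisors] at hd
      obtain ⟨⟨h2, -⟩, h3, h4⟩ := hd
      have h5 : p ∣ d := by
        by_contra h6
        exact h4 (((Nat.Prime.coprime_iff_not_dvd hp).2 h6).symm.dvd_of_dvd_mul_left h3)
      obtain ⟨e, rfl⟩ := h5
      refine ⟨e, ?_, rfl⟩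
      rw [mem_filter, Nat.mem_divisors]
      exact ⟨⟨(Dvd.intro_left p rfl).trans h2, hn⟩, Nat.dvd_of_mul_dvd_mul_left hp0 h3, h2, h4⟩
    · intro e he
      rw [mem_filter, Nat.mem_divisors] at he
      obtain ⟨-, ⟨m', rfl⟩, ⟨n', rfl⟩, -⟩ := he
      have he0 : 0 < e := Nat.pos_of_ne_zero (by rintro rfl; simp at hn)
      rw [ps_mul, mul_assoc (ps p), ← mul_assoc p e m', Nat.mul_div_cancel_left _ he0,
        Nat.mul_div_cancel_left _ (Nat.mul_pos hp0 he0),
        Nat.mul_div_cancel_left _ (Nat.mul_pos hp0 he0),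
        show p * e * n' = e * (p * n') by ring, Nat.mul_div_cancel_left _ he0,
        show m' * (p * n') = p * (m' * n') by ring, Nat.mul_div_cancel_left _ hp0]
  have h2 : SS a (p * m) n =
      (∑ d ∈ n.divisors, if d ∣ m then ps d * a (p * (m / d * (n / d))) else 0) +
      ∑ d ∈ n.divisors with (d ∣ p * m ∧ ¬ d ∣ m), ps d * a (p * m / d * (n / d)) := by
    rw [SS, sum_filter, ← sum_add_distrib]
    refine sum_congr rfl fun d _ => ?_
    by_cases h3 : d ∣ m
    · rw [if_pos h3, if_pos (h3.mul_left p), if_neg (fun h => h.2 h3), Nat.mul_div_assoc p h3,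
        mul_assoc p, add_zero]
    · simp [h3]
  have h3 : (if p ∣ m then ps p * SS a (m / p) n else 0) = ∑ e ∈ n.divisors,
      if p * e ∣ m then ps p * (ps e * a (m / e * (n / e) / p)) else 0 := by
    split_ifs with h4
    · obtain ⟨m', rfl⟩ := h4
      rw [Nat.mul_div_cancel_left _ hp0, SS, mul_sum]
      refine sum_congr rfl fun e _ => ?_
      by_cases h5 : e ∣ m'
      · rw [if_pos h5, if_pos (Nat.mul_dvd_mul_left p h5), Nat.mul_div_assoc p h5, mul_assoc p,
          Nat.mul_div_cancel_left _ hp0]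
      · rw [if_neg h5, if_neg fun h => h5 (Nat.dvd_of_mul_dvd_mul_left hp0 h), mul_zero]
    · symm
      refine sum_eq_zero fun e _ => if_neg fun h => h4 ((Dvd.intro e rfl).trans h)
  rw [h2, h1, h3, sum_filter, SS, mul_sum, ← sum_add_distrib, ← sum_add_distrib]
  refine sum_congr rfl fun e he => ?_
  by_cases h4 : e ∣ m
  · obtain ⟨m', rfl⟩ := h4
    obtain ⟨n', rfl⟩ := Nat.dvd_of_mem_divisors he
    have he0 : 0 < e := Nat.pos_of_mem_divisors he
    have e1 : p * e ∣ e * m' ↔ p ∣ m' := by rw [mul_comm p, Nat.mul_dvd_mul_iff_left he0]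
    have e2 : p * e ∣ e * n' ↔ p ∣ n' := by rw [mul_comm p, Nat.mul_dvd_mul_iff_left he0]
    have e3 := hecke_p H hp (m' * n')
    simp only [Nat.mul_div_cancel_left _ he0, e1, e2, dvd_mul_right, true_and, if_true]
    simp only [hp.dvd_mul] at e3
    by_cases h5 : p ∣ m' <;> by_cases h6 : p ∣ n' <;>
      simp only [h5, h6, true_or, or_true, or_self, if_true, if_false, not_true, not_false_iff,
        and_self, and_true, and_false] at e3 ⊢ <;> linear_combination ps e * e3
  · have h5 : ¬ p * e ∣ m := fun h => h4 ((Dvd.intro_left p rfl).trans h)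
    simp [h4, h5]

/-- the product formula -/
theorem hecke_mul {n : ℕ} (hn : n ≠ 0) (m : ℕ) : a m * a n = SS a m n := by
  induction m using Nat.strong_induction_on with
  | _ m ih =>
    rcases Nat.eq_zero_or_pos m with rfl | hm
    · simp [SS, H.zero]
    rcases eq_or_ne m 1 with rfl | h1
    · rw [SS, sum_eq_single 1]
      · simp [ps, H.one]
      · intro d _ hd
        rw [if_neg (by simpa using hd)]
      · intro h
        exact absurd (Nat.one_mem_divisors.2 hn) h
    obtain ⟨p, hp, m', rfl⟩ := Nat.exists_prime_and_dvd h1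
    have hm' : 0 < m' := Nat.pos_of_mul_pos_left hm
    have h2 : m' < p * m' := by nlinarith [hp.two_le]
    have h3 := SS_rec H hp m' hn
    have h4 := hecke_p H hp m'
    rw [← ih m' h2, ← ih (m' / p) ((Nat.div_le_self _ _).trans_lt h2)] at h3
    split_ifs at h3 h4
    · linear_combination a n * h4 - h3
    · linear_combination a n * h4 - h3

end Vale.Agent.P014K
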