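import Vale.Agent.P014G.Base
import Vale.Agent.P014F.Alg

/-!
# P014K: the `2`-part of the formula from the blocks
-/

open NumberField
open scoped Real

namespace Vale.Agent.P014K

open Vale.Agent.P014 Vale.Agent.P014B Vale.Agent.P017.H185 Vale.Agent.P014G

theorem odd_val {m : ℤ} (h : Odd m) : padicValRat 2 (m : ℚ) = 0 := by
  rw [padicValRat.of_int, padicValInt.eq_zero_of_not_dvd (by
    obtain ⟨k, rfl⟩ := h
    omega)]
  rfl

theorem main (hI : IndStmt) (K : Type) [Field K] [NumberField K] (n : ℕ) (q : QF K n) (k : ℤ)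
    (hk : 4 * k + 1 = -(n : ℤ)) (h17 : jacobiSym n 17 = -1) (hF : Fam n)
    (hcl : ∀ c : ClassGroup (𝓞 K), orderOf c ≠ 4) :
    GlobalMinimal (tw k) ∧ Finite (tw k).toAffine.Point ∧ Nat.card (shaPrimary (tw k) 2) = 1 ∧
      (∃ L, IsHasseWeil (tw k) L) ∧
      ∀ L, IsHasseWeil (tw k) L → L 1 ≠ 0 ∧ PPartRankZero (tw k) L 2 := by
  obtain ⟨a1, a2, a3, a4, a5⟩ := Vale.Agent.P014F.alg K n q k hk h17 hF hcl
  have hn := q.d_pos
  have h4 : n % 4 = 3 := by omega
  have hd : ¬ 17 ∣ n := by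
    rintro ⟨c, rfl⟩
    rw [Nat.cast_mul, jacobiSym.mul_left] at h17
    have : jacobiSym ((17 : ℕ) : ℤ) 17 = 0 := by norm_num
    rw [this] at h17
    norm_num at h17
  obtain ⟨-, -, l3⟩ := lstmt n q.hd (Nat.odd_iff.2 (by omega)) hd
  obtain ⟨l4, l5⟩ := l3 k (by rw [hk]; simp)
  obtain ⟨ρ, r0, r1, r2⟩ := hI.2 K n q h4 h17 hF hcl
  obtain ⟨m, m0, m1⟩ := base hI.1
  obtain ⟨p0, p1⟩ := period
  have hs : (0 : ℝ) < √(n : ℝ) := Real.sqrt_pos.2 (by exact_mod_cast hn)
  have hm : m ≠ 0 := by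
    rintro rfl
    simp at m0
  have hL : Lv n = ρ * 4 ^ (n.primeFactors.card - 1) * (m * (Om / 2)) / √(n : ℝ) := by
    rw [← m1, ← r2, ell]
    field_simp
  have hT : torsionOrder (tw k) ≠ 0 := by
    intro h
    rw [h] at a5
    simp at a5
  obtain ⟨r, hr⟩ : ∃ r, n.primeFactors.card = r + 1 := ⟨n.primeFactors.card - 1, by
    have : n.primeFactors.Nonempty := Nat.nonempty_primeFactors.2 (by omega)
    have := this.card_pos
    omega⟩
  refine ⟨a1, a2, a3, l4, fun L hL' => ⟨?_, ρ * m * (torsionOrder (tw k)) ^ 2 / 16, ?_, ?_, ?_⟩⟩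
  · rw [l5 L hL', hL]
    have : (ρ : ℝ) ≠ 0 := by exact_mod_cast r0
    have : (m : ℝ) ≠ 0 := by exact_mod_cast hm
    exact_mod_cast (by positivity : ρ * 4 ^ (n.primeFactors.card - 1) * (m * (Om / 2)) /
      √(n : ℝ) ≠ 0)
  · have : (m : ℚ) ≠ 0 := by exact_mod_cast hm
    positivity
  · have h1 : (m : ℚ) ≠ 0 := by exact_mod_cast hm
    have h2 : (torsionOrder (tw k) : ℚ) ≠ 0 := by exact_mod_cast hT
    have h3 : padicValRat 2 (16 : ℚ) = 4 := by
      rw [show (16 : ℚ) = ((2 : ℕ) : ℚ) ^ 4 by norm_num, padicValRat.pow,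
        padicValRat.self (by norm_num)]
      norm_num
    rw [padicValRat.div (by positivity) (by norm_num), padicValRat.mul (by positivity)
      (by positivity), padicValRat.mul r0 h1, padicValRat.pow, r1, odd_val m0,
      padicValRat.of_nat, a5, h3]
    norm_num
  · have h2 : (torsionOrder (tw k) : ℝ) ≠ 0 := by exact_mod_cast hT
    rw [l5 L hL', hL, p1 k n hn hk, a3, a4, hr, ← Complex.ofReal_ratCast, ← Complex.ofReal_mul]
    congr 1
    push_cast
    field_simp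
    ring

end Vale.Agent.P014K
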