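import Vale.Agent.P014K.Base2
import Vale.Agent.P014K.Main

/-!
# P014K: the `2`-part of the formula for the positive twists of `X₀(17)` from the blocks
-/

open scoped Real

namespace Vale.Agent.P014K

open Vale.Agent.P014 Vale.Agent.P014B Vale.Agent.P014G

theorem main2 (hI : Ind2Stmt) (hS : Sel2Stmt) (k : ℤ) (d : ℕ) (hk : 4 * k + 1 = d) (hF : Fam2 d) :
    GlobalMinimal (x17 k) ∧ Finite (x17 k).toAffine.Point ∧ Nat.card (shaPrimary (x17 k) 2) = 1 ∧
      (∃ L, IsHasseWeil (x17 k) L) ∧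
      ∀ L, IsHasseWeil (x17 k) L → L 1 ≠ 0 ∧ PPartRankZero (x17 k) L 2 := by
  obtain ⟨a1, a4⟩ := tam2 k d hk hF
  obtain ⟨a2, a3, a5⟩ := hS k d hk hF
  obtain ⟨-, -, l3⟩ := lstmt d hF.1 (Nat.odd_iff.2 (by omega)) (not17 hF)
  obtain ⟨⟨L₀, l4⟩, l5⟩ := l3 k (by rw [hk]; simp)
  obtain ⟨ρ, r0, r1, r2⟩ := hI.2 d hF
  obtain ⟨p0, p1, p2⟩ := base2
  obtain ⟨m, m0, m1⟩ := p2 hI.1
  have hs : (0 : ℝ) < √(d : ℝ) := Real.sqrt_pos.2 (by exact_mod_cast (show 0 < d by omega))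
  have hm : m ≠ 0 := by
    rintro rfl
    simp at m0
  have hL : Lv d = ρ * 4 ^ (d.primeFactors.card + 1) * (m * (realPeriod (x17 0) / 4)) /
      √(d : ℝ) := by
    rw [← m1, ← r2, ell]
    field_simp
  have hT : torsionOrder (x17 k) ≠ 0 := by
    intro h
    rw [h] at a5
    simp at a5
  refine ⟨a1, a2, a3, ⟨L₀, (hw_x17 hk hF _).2 l4⟩, fun L hL' =>
    ⟨?_, ρ * m * (torsionOrder (x17 k)) ^ 2 / 4, ?_, ?_, ?_⟩⟩
  · rw [l5 L ((hw_x17 hk hF _).1 hL'), hL]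
    have : (ρ : ℝ) ≠ 0 := by exact_mod_cast r0
    have : (m : ℝ) ≠ 0 := by exact_mod_cast hm
    exact_mod_cast (by positivity : ρ * 4 ^ (d.primeFactors.card + 1) *
      (m * (realPeriod (x17 0) / 4)) / √(d : ℝ) ≠ 0)
  · have : (m : ℚ) ≠ 0 := by exact_mod_cast hm
    positivity
  · have h1 : (m : ℚ) ≠ 0 := by exact_mod_cast hm
    have h2 : (torsionOrder (x17 k) : ℚ) ≠ 0 := by exact_mod_cast hT
    have h3 : padicValRat 2 (4 : ℚ) = 2 := by
      rw [show (4 : ℚ) = ((2 : ℕ) : ℚ) ^ 2 by norm_num, padicValRat.pow,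
        padicValRat.self (by norm_num)]
      norm_num
    rw [padicValRat.div (by positivity) (by norm_num), padicValRat.mul (by positivity)
      (by positivity), padicValRat.mul r0 h1, padicValRat.pow, r1, odd_val m0,
      padicValRat.of_nat, a5, h3]
    norm_num
  · have h2 : (torsionOrder (x17 k) : ℝ) ≠ 0 := by exact_mod_cast hT
    rw [l5 L ((hw_x17 hk hF _).1 hL'), hL, p1 k d hk, a3, a4, ← Complex.ofReal_ratCast,
      ← Complex.ofReal_mul]
    congr 1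
    push_cast
    field_simp
    ring

end Vale.Agent.P014K
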