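import Vale.Agent.P014G.Base

/-!
# P014K: the curve `X₀(17)`: real period of the positive twists and the central value
-/

open Complex Filter Topology Set MeasureTheory
open scoped Real

namespace Vale.Agent.P014K

open Vale.Agent.P014 Vale.Agent.P014.H687 Vale.Agent.P014B Vale.Agent.P014G Vale.Agent.P010.H193
open Vale.Agent.P014.H70 (r3 Th3)
open Vale.Agent.P004H.H204 (Conv ev qq th norm_qq norm_qq_lt exists_qq)
open Vale.Agent.P014.H687.Isog (GW GW_b₂ GW_b₄ GW_b₆ LFunction_GW)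

theorem br_unique {s s' r r' C : ℝ → ℝ} {t : ℝ} (b : Br s s' C t) (c : Br r r' C t) :
    s t = r t := by
  have key : ∀ {s s' r r' : ℝ → ℝ}, Br s s' C t → Br r r' C t → ¬ s t < r t := by
    intro s s' r r' b c h
    have h1 : r t ∈ s '' Ioo 0 t := b.image ▸ h
    obtain ⟨u, hu, h2⟩ := h1
    have h3 := (b.mono hu.1 hu.2.le).integral
    rw [h2, c.integral] at h3
    exact hu.2.ne h3.symm
  exact le_antisymm (not_lt.1 (key c b)) (not_lt.1 (key b c))

theorem cx_one_p (x : ℝ) : cx L1 1 x = (x - 5 / 2) * ((2 * x + 5 / 2) ^ 2 + 16) := by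
  rw [cx, L1_g2, L1_g3]
  norm_num
  ring

/-- the isogeny on the real axis -/
theorem br_isog_p {s s' : ℝ → ℝ} {h : ℝ} (b : Br s s' (cub (11 / 4) (-5 / 4) (-3 / 2)) h)
    (hs : 11 / 4 ≤ s h) : Br (fun t => s t - (s t + 5 / 4)⁻¹)
      (fun t => s' t * (1 + 1 / (s t + 5 / 4) ^ 2)) (cx L1 1) h := by
  have h1 : ∀ t ∈ Ioc 0 h, 4 ≤ s t + 5 / 4 := fun t ht => by
    have := b.le_of_mem ht
    linarith
  have h2 : ∀ t ∈ Ioc 0 h, s t + 5 / 4 ≠ 0 := fun t ht => by
    have := h1 t ht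
    positivity
  refine ⟨b.pos, fun t ht => ?_, fun t ht => ?_, fun t ht => ?_, ?_, ?_⟩
  · have h3 := h2 t (Ioo_subset_Ioc_self ht)
    refine ((b.der t ht).fun_sub (((b.der t ht).add_const _).fun_inv h3)).congr_deriv ?_
    field_simp
    ring
  · exact mul_ne_zero (b.ne t ht) (by positivity)
  · have h3 := h2 t (Ioo_subset_Ioc_self ht)
    rw [mul_pow, b.sq t ht, cx_one_p, cub]
    obtain ⟨v, hv⟩ : ∃ v, s t = v - 5 / 4 := ⟨s t + 5 / 4, by ring⟩
    rw [hv] at h3 ⊢
    simp only [sub_add_cancel] at h3 ⊢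
    field_simp
    ring
  · exact b.cont.sub ((b.cont.add continuousOn_const).inv₀ h2)
  · refine tendsto_atTop_mono' _ ?_ (tendsto_atTop_add_const_right _ (-1) b.top)
    filter_upwards [Ioc_mem_nhdsGT b.pos] with t ht
    have h3 : (s t + 5 / 4)⁻¹ ≤ 1 := inv_le_one_of_one_le₀ (by linarith [h1 t ht])
    linarith

theorem br0 : Br (sx L0 1 1) (sx' L0 1 1) (cub (11 / 4) (-5 / 4) (-3 / 2)) (wR / 2) :=
  cx_p ▸ gen_p.br L0_real dir_p

theorem int_one_p : ∫ x in Ioi (5 / 2 : ℝ), 1 / Real.sqrt (cx L1 1 x) = wR / 2 := by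
  have h5 := (br_isog_p br0 sx_p.ge).integral
  simp only [sx_p] at h5
  rwa [show (11 / 4 - (11 / 4 + 5 / 4)⁻¹ : ℝ) = 5 / 2 by norm_num] at h5

theorem gen_one_p : Gen L1 1 wR := by
  obtain ⟨ω, g⟩ := exists_gen L1_real dir_p
  have h1 := (g.br L1_real dir_p).integral
  have h2 := g.root L1_real dir_p
  rw [cx_one_p] at h2
  have h3 : sx L1 1 1 (ω / 2) = 5 / 2 := by
    have := (mul_eq_zero.1 h2).resolve_right (by positivity)
    linarith
  rw [h3, int_one_p] at h1
  rwa [show wR = ω by linarith]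

theorem wp_quarter : L1.weierstrassP ((wR / 4 : ℝ) : ℂ) = 27 / 4 := by
  have h0 := gen_p.pos
  have hs : (0 : ℝ) < √17 := by positivity
  have hq : √(17 : ℝ) ^ 2 = 17 := Real.sq_sqrt (by norm_num)
  have h1 : (11 / 4 + √17 : ℝ) ∈ sx L0 1 1 '' Ioo 0 (wR / 2) := by
    rw [br0.image, sx_p]
    exact lt_add_of_pos_right _ hs
  obtain ⟨t, ht, h2⟩ := h1
  have h3 := (br0.mono ht.1 ht.2.le).integral
  have h4 := br0.integral
  have h5 := br0.integrableOn
  rw [sx_p] at h4 h5
  have h6 := half_integral (by norm_num) (by norm_num) h5 (y := 11 / 4 + √17) (by linarith)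
    (by rw [add_sub_cancel_left, hq]; norm_num)
  rw [h2] at h3
  rw [h3, h4] at h6
  have h7 : t = wR / 4 := by linarith
  subst h7
  have h8 := br_unique ((gen_one_p.br L1_real dir_p).mono ht.1 ht.2.le)
    (br_isog_p (br0.mono ht.1 ht.2.le) (by rw [h2]; linarith))
  have h9 : (11 / 4 + √17 + 5 / 4 : ℝ)⁻¹ = √17 - 4 :=
    inv_eq_of_mul_eq_one_right (by linear_combination hq)
  simp only [h2, h9] at h8
  have h10 := wp_sx L1_real dir_p (wR / 4)
  rw [h8, one_mul] at h10
  rw [h10]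
  push_cast
  ring

/-- the real period of a positive twist of `X₀(17)` -/
theorem period_one (k : ℤ) (d : ℕ) (hd : 0 < d) (hk : 4 * k + 1 = (d : ℤ)) :
    realPeriod (GW ℚ (-1) (-14) k) = wR / √(d : ℝ) := by
  have hc : Continuous (cx L1 1) := by
    unfold cx
    fun_prop
  have h1 : {s | 0 < cx L1 1 s} = Ioi (5 / 2) := by
    ext s
    rw [mem_ofPred_eq, cx_one_p, mul_pos_iff_of_pos_right (by positivity), sub_pos, mem_Ioi]
  rw [realPeriod, affine_integral (cx L1 1) hc (d := d) (by exact_mod_cast hd) (1 / 4)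
    (psi (GW ℚ (-1) (-14) k)) (fun s => by
      rw [psi, GW_b₂, GW_b₄, GW_b₆, hk, cx_one_p]
      push_cast
      ring), h1, int_one_p]
  ring

theorem ident_at {z : ℂ} (hz : 0 < z.im) (hu : uu z ∉ L1.lattice) :
    8 * Fc Th3 z ^ 3 * L1.weierstrassP (uu z) =
      HH (Fc Th3 z) (ec z) (dv (fun n => (an r3 n : ℂ)) z) (dv (fun n => (cE n : ℂ)) z) := by
  have c1 := ((F_form' T3).hasDeriv hz).continuousAt
  have c2 := (ec_form.hasDeriv hz).continuousAt
  have c3 : ContinuousAt (dv fun n => (an r3 n : ℂ)) z :=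
    ((Vale.Agent.P004H.H204.conv_th conv_pf).hasDerivAt hz).continuousAt
  have c4 : ContinuousAt (dv fun n => (cE n : ℂ)) z :=
    ((Vale.Agent.P004H.H204.conv_th conv_pE).hasDerivAt hz).continuousAt
  have c5 : ContinuousAt (fun x => L1.weierstrassP (uu x)) z :=
    ContinuousAt.comp (wp_analyticAt L1 hu).continuousAt (uu_der hz).continuousAt
  refine tendsto_nhds_unique_of_eventuallyEq (l := 𝓝[≠] z)
    (ContinuousAt.continuousWithinAt (f := fun x => 8 * Fc Th3 x ^ 3 * L1.weierstrassP (uu x))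
      (by fun_prop))
    (ContinuousAt.continuousWithinAt (f := fun x => HH (Fc Th3 x) (ec x)
      (dv (fun n => (an r3 n : ℂ)) x) (dv (fun n => (cE n : ℂ)) x)) (by unfold HH; fun_prop))
    (half_ident L1_g2 L1_g3 hz)

/-- the height of the fixed point of the Fricke involution -/
noncomputable def y1 : ℝ := 1 / √17

theorem y1_pos : 0 < y1 := by
  unfold y1
  positivity

theorem y1_sq : 17 * y1 ^ 2 = 1 := by
  rw [y1, div_pow, Real.sq_sqrt (by norm_num)]
  norm_num

/-- the image of the cusp `0` -/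
noncomputable def cc : ℂ := 2 * uu (y1 * I)

theorem uu_W' {z : ℂ} (hz : 0 < z.im) : uu (-1 / (17 * z)) = cc - uu z := by
  have h1 := const_of (G := fun z => uu (-1 / (17 * z)) + uu z) (fun x hx => by
    have h0 := ne_of_im hx
    have hd : HasDerivAt (fun w : ℂ => -1 / (17 * w)) (1 / (17 * x ^ 2)) x := by
      refine ((hasDerivAt_const x (-1 : ℂ)).fun_div ((hasDerivAt_id' x).const_mul (17 : ℂ))
        (mul_ne_zero (by norm_num) h0)).congr_deriv ?_
      field_simp
      ring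
    refine (((uu_der (Vale.Agent.P004H.H792.im_S (im17 hx))).comp x hd).fun_add
      (uu_der hx)).congr_deriv ?_
    rw [(F_form' T3).W x hx]
    field_simp
    ring) hz (w := (y1 : ℂ) * I) (by simpa using y1_pos)
  have h2 : -1 / (17 * ((y1 : ℂ) * I)) = (y1 : ℂ) * I := by
    have h3 : (17 : ℂ) * (y1 : ℂ) ^ 2 = 1 := by exact_mod_cast y1_sq
    have h4 : (y1 : ℂ) ≠ 0 := by exact_mod_cast y1_pos.ne'
    field_simp
    linear_combination h3 - 17 * (y1 : ℂ) ^ 2 * I_sq
  simp only [h2] at h1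
  rw [cc]
  linear_combination h1

theorem prod_ident : ∀ᶠ q in 𝓝[≠] (0 : ℂ), cc - ev pU q ∉ L1.lattice →
    64 * ev pF q ^ 2 * L1.weierstrassP (cc - ev pU q) * (q ^ 2 * L1.weierstrassP (ev pU q)) =
      108 * (ev pE q - 4 * q * ev pF q) ^ 2 + 1088 * (ev pE q - 4 * q * ev pF q) * q * ev pF q +
        2872 * q ^ 2 * ev pF q ^ 2 := by
  have aV := ev_analytic conv_pV (q := 0) (by simp)
  filter_upwards [ball_ev, pF_ne.filter_mono nhdsWithin_le_nhds, (U_tendsto aV
    (by simp [ev_zero, pV, an_one T3])).eventually (eventually_notMem L1)] with q ⟨h0, h1⟩ h2 h3 h4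
  rw [← ev_pU h1] at h3
  have h5 := ev_pf h1
  obtain ⟨z, hz, rfl⟩ := exists_qq h0 h1
  have hW := Vale.Agent.P004H.H792.im_S (im17 hz)
  have e1 := ident_at hz h3
  have e2 := ident_at hW (by rw [uu_W' hz]; exact h4)
  have e3 := gg_zero T3 ⟨z, hz⟩
  have e4 := bracket_W ec_form (F_form' T3) hz
  rw [HH, e4, (F_form' T3).W z hz, ec_form.W z hz, uu_W' hz] at e2
  unfold gg at e3
  simp only at e3
  have e5 : Fc Th3 z = qq z * ev pF (qq z) := ((F_form' T3).eq_ev hz).trans h5
  have e6 : ec z = ev pE (qq z) := ec_form.eq_ev hz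
  have hz0 := ne_of_im hz
  rw [HH] at e1
  rw [← e6]
  change 64 * ev pF (qq z) ^ 2 * L1.weierstrassP (cc - uu z) *
    (qq z ^ 2 * L1.weierstrassP (uu z)) = _
  generalize ec z * dv (fun n => (an r3 n : ℂ)) z - Fc Th3 z * dv (fun n => (cE n : ℂ)) z = br at *
  have e7 : 8 * Fc Th3 z ^ 3 * L1.weierstrassP (cc - uu z) =
      Fc Th3 z * (ec z - 4 * Fc Th3 z) ^ 2 - 2 * br - 27 * Fc Th3 z ^ 3 := by
    apply mul_left_cancel₀ (mul_ne_zero (by norm_num : (-4913 : ℂ) ≠ 0) (pow_ne_zero 6 hz0))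
    linear_combination e2
  rw [e5] at e1 e3 e7
  apply mul_left_cancel₀ (pow_ne_zero 4 (mul_ne_zero h0 h2))
  generalize L1.weierstrassP (cc - uu z) = P at *
  generalize L1.weierstrassP (uu z) = Q at *
  generalize ev pF (qq z) = F at *
  generalize ec z = E at *
  generalize qq z = q at *
  linear_combination (8 * (q * F) ^ 3 * P) * e1 +
    (q * F * (E - 4 * (q * F)) ^ 2 + 2 * br - 27 * (q * F) ^ 3) * e7 - e3

theorem wp_cc : cc ∉ L1.lattice ∧ L1.weierstrassP cc = 27 / 4 := by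
  have aV := ev_analytic conv_pV (q := 0) (by simp)
  have V0 : ev pV 0 = 1 := by simp [ev_zero, pV, an_one T3]
  have cF := (ev_analytic conv_pF (q := 0) (by simp)).continuousAt
  have cE' := (ev_analytic conv_pE (q := 0) (by simp)).continuousAt
  have cU := (ev_analytic conv_pU (q := 0) (by simp)).continuousAt
  have U0 : ev pU 0 = 0 := by simp [ev_zero, pU]
  have E0 : ev pE 0 = 2 := by simp [ev_zero, pE, cE]
  have t1 : Tendsto (fun q => q ^ 2 * L1.weierstrassP (ev pU q)) (𝓝[≠] 0) (𝓝 1) := by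
    have h1 : ContinuousAt (fun q => pa L1 (q * ev pV q) / ev pV q ^ 2) 0 :=
      ContinuousAt.div (f := fun q => pa L1 (q * ev pV q))
        (ContinuousAt.comp (g := pa L1) (f := fun q => q * ev pV q)
          (by simpa using (pa_analytic L1).continuousAt)
          (continuousAt_id.mul aV.continuousAt)) (aV.continuousAt.pow 2) (by simp [V0])
    have h2 := h1.tendsto.mono_left (nhdsWithin_le_nhds (s := {0}ᶜ))
    simp only [zero_mul, pa_zero, V0, one_pow, div_one] at h2
    refine h2.congr' ?_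
    filter_upwards [W_eq L1 aV V0, ball_ev] with q h3 h4
    rw [h3, ev_pU h4.2]
  have t2 : Tendsto (fun q => 108 * (ev pE q - 4 * q * ev pF q) ^ 2 +
      1088 * (ev pE q - 4 * q * ev pF q) * q * ev pF q + 2872 * q ^ 2 * ev pF q ^ 2) (𝓝[≠] 0)
      (𝓝 432) := by
    have h1 : ContinuousAt (fun q => 108 * (ev pE q - 4 * q * ev pF q) ^ 2 +
        1088 * (ev pE q - 4 * q * ev pF q) * q * ev pF q + 2872 * q ^ 2 * ev pF q ^ 2) 0 := by
      fun_prop
    have h2 := h1.tendsto.mono_left (nhdsWithin_le_nhds (s := {0}ᶜ))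
    simp only [E0] at h2
    norm_num at h2
    exact h2
  have t3 : Tendsto (fun q => 64 * ev pF q ^ 2) (𝓝[≠] 0) (𝓝 64) := by
    have h1 : ContinuousAt (fun q => 64 * ev pF q ^ 2) 0 := by fun_prop
    simpa [pF_zero] using h1.tendsto.mono_left (nhdsWithin_le_nhds (s := {0}ᶜ))
  have hc : cc ∉ L1.lattice := by
    intro hc
    have t4 : Tendsto (fun q : ℂ => q ^ 2) (𝓝[≠] 0) (𝓝 0) := by
      simpa using ((continuous_pow 2).tendsto (0 : ℂ)).mono_left (nhdsWithin_le_nhds (s := {0}ᶜ))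
    have h1 := tendsto_nhds_unique_of_eventuallyEq ((t3.mul t1).mul t1) (t4.mul t2) (by
      filter_upwards [prod_ident, ball_ev, (U_tendsto aV V0).eventually (eventually_notMem L1)]
        with q h2 h3 h4
      rw [← ev_pU h3.2] at h4
      have h5 : cc - ev pU q ∉ L1.lattice := fun h6 => h4 (by simpa using sub_mem hc h6)
      rw [← h2 h5, ← (wp_eq_iff L1 h4 h5).2 (Or.inr (by simpa using hc))]
      ring)
    norm_num at h1
  have t5 : Tendsto (fun q => cc - ev pU q) (𝓝[≠] 0) (𝓝 cc) := by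
    simpa [U0] using (cU.tendsto.const_sub cc).mono_left (nhdsWithin_le_nhds (s := {0}ᶜ))
  refine ⟨hc, ?_⟩
  have h1 := tendsto_nhds_unique_of_eventuallyEq
    ((t3.mul ((wp_analyticAt L1 hc).continuousAt.tendsto.comp t5)).mul t1) t2 (by
      filter_upwards [prod_ident, t5.eventually (wp_notMem_nhds L1 hc)] with q h2 h3 using h2 h3)
  linear_combination h1 / 64

theorem f_axis {y : ℝ} (hy : 0 < y) : Fc Th3 (y * I) = FF 1 y := by
  rw [← ((F_form' T3).sum (y * I) (by simpa using hy)).tsum_eq, FF, Vale.Agent.P004.H26.fD,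
    Complex.ofReal_tsum]
  refine tsum_congr fun m => ?_
  rw [qq_axis, ← Complex.ofReal_pow, ← Real.exp_nat_mul, jacobiSym.one_right, mul_one,
    show (m : ℝ) * (-2 * π * y) = -2 * π * m * y by ring, Complex.ofReal_mul, Complex.ofReal_intCast]

theorem FF1_int : IntegrableOn (FF 1) (Ioi 0) := FF_integrable squarefree_one odd_one (by decide)

theorem FF1_half : ∫ y in Ioo 0 y1, FF 1 y = ∫ y in Ioi y1, FF 1 y := by
  have h0 := y1_pos
  have h1 : Ioo 0 y1 = (fun y : ℝ => 1 / (17 * y)) '' Ioi y1 := by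
    ext x
    constructor
    · rintro ⟨h2, h3⟩
      refine ⟨1 / (17 * x), ?_, by field_simp⟩
      rw [mem_Ioi, lt_div_iff₀ (by positivity)]
      nlinarith [y1_sq]
    · rintro ⟨y, hy, rfl⟩
      have h2 : y1 < y := hy
      have h3 : 0 < y := h0.trans h2
      refine ⟨by positivity, ?_⟩
      rw [div_lt_iff₀ (by positivity)]
      nlinarith [y1_sq]
  rw [h1, integral_image_eq_integral_abs_deriv_smul (f' := fun y => -(1 / (17 * y ^ 2)))
    measurableSet_Ioi]
  · refine setIntegral_congr_fun measurableSet_Ioi fun y hy => ?_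
    have h3 : 0 < y := h0.trans hy
    have h4 := FF_fe squarefree_one odd_one (by decide) h3
    simp only [jacobiSym.one_right, Nat.cast_one, one_pow, mul_one, Int.cast_one, one_mul] at h4
    simp only [smul_eq_mul]
    rw [abs_neg, abs_of_pos (by positivity), h4]
    field_simp
  · intro y hy
    have h3 : 0 < y := h0.trans hy
    refine ((hasDerivAt_const y (1 : ℝ)).fun_div ((hasDerivAt_id' y).const_mul 17)
      (by positivity)).hasDerivWithinAt.congr_deriv ?_
    field_simp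
    ring
  · intro x hx y hy h
    have h3 : 0 < x := h0.trans hx
    have h4 : 0 < y := h0.trans hy
    simp only at h
    field_simp at h
    linarith

theorem ell_one : (ell 1 : ℂ) = cc := by
  have h0 := y1_pos
  have h1 := FF1_int.mono_set (Ioi_subset_Ioi h0.le)
  have hd : ∀ y ∈ Ici y1, HasDerivAt (fun y : ℝ => (uu (y * I)).re) (-(2 * π) * FF 1 y) y := by
    intro y hy
    have hy' : 0 < y := h0.trans_le hy
    have h2 := ((uu_der (z := y * I) (by simpa using hy')).comp (y : ℂ)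
      ((hasDerivAt_id' (y : ℂ)).mul_const I)).real_of_complex
    refine HasDerivAt.congr_deriv h2 ?_
    rw [f_axis hy', ← Complex.ofReal_re (-(2 * π) * FF 1 y)]
    congr 1
    push_cast
    linear_combination 2 * π * FF 1 y * I_mul_I
  have hl : Tendsto (fun y : ℝ => (uu (y * I)).re) atTop (𝓝 0) := by
    have h2 : Tendsto (fun y : ℝ => qq (y * I)) atTop (𝓝 0) := by
      rw [tendsto_zero_iff_norm_tendsto_zero]
      simp only [norm_qq, mul_im, ofReal_re, I_im, mul_one, ofReal_im, I_re, mul_zero, add_zero]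
      exact Real.tendsto_exp_neg_atTop_nhds_zero.comp
        (tendsto_id.const_mul_atTop (by positivity : 0 < 2 * π))
    have h3 := (Complex.continuous_re.tendsto _).comp (conv_pU.tendsto.comp h2)
    have h4 : (PowerSeries.constantCoeff pU).re = 0 := by simp [pU]
    rw [h4] at h3
    exact h3
  have h2 := integral_Ioi_of_hasDerivAt_of_tendsto' hd (h1.const_mul _) hl
  rw [integral_const_mul] at h2
  have h3 : Ioi (0 : ℝ) = Ioc 0 y1 ∪ Ioi y1 := (Ioc_union_Ioi_eq_Ioi h0.le).symm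
  have h4 : ell 1 = 2 * (uu (y1 * I)).re := by
    rw [ell, Lv, h3, setIntegral_union (Ioc_disjoint_Ioi le_rfl) measurableSet_Ioi
      (FF1_int.mono_set Ioc_subset_Ioi_self) h1, integral_Ioc_eq_integral_Ioo, FF1_half]
    simp only [Nat.cast_one, Real.sqrt_one]
    linarith
  rw [h4, cc]
  apply Complex.ext
  · simp
  · simp [uu_axis h0]

/-- the central value of `X₀(17)` -/
theorem base_one : ∃ m : ℤ, Odd m ∧ ell 1 = m * (wR / 4) := by
  have h0 := gen_p.pos
  have h1 := gen_one_p.notMem (t := wR / 4) (by linarith) (by linarith)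
  rw [one_mul] at h1
  rcases (wp_eq_iff L1 h1 wp_cc.1).1 (wp_quarter.trans wp_cc.2.symm) with h | h
  · rw [← ell_one, ← Complex.ofReal_sub, ← one_mul ((ell 1 - wR / 4 : ℝ) : ℂ), gen_one_p.mem] at h
    obtain ⟨n, hn⟩ := h
    exact ⟨4 * n + 1, ⟨2 * n, by ring⟩, by push_cast; linarith⟩
  · rw [← ell_one, ← Complex.ofReal_add, ← one_mul ((ell 1 + wR / 4 : ℝ) : ℂ), gen_one_p.mem] at h
    obtain ⟨n, hn⟩ := h
    exact ⟨4 * n - 1, ⟨2 * n - 1, by ring⟩, by push_cast; linarith⟩

/-- the `L`-function of a twist of `X₀(17)` -/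
theorem hw_one {k : ℤ} (h : Squarefree (4 * k + 1)) (h17 : ¬ (17 : ℤ) ∣ 4 * k + 1) (L : ℂ → ℂ) :
    IsHasseWeil (GW ℚ (-1) (-14) k) L ↔ IsHasseWeil (tw k) L := by
  simp only [IsHasseWeil, LFunction_GW (Or.inl ⟨rfl, rfl⟩) k h h17]

end Vale.Agent.P014K
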